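import Vale.Agent.P216.LS.Equal

/-!
P216, local version of the Milnor homotopy: loops and polygons with short steps, without any
relation between the energy and the number of vertices.
-/

open Set Filter Topology

namespace Vale.Agent.P216.H844

open LS L250

variable {M : Type*} [MetricSpace M] {K : ℕ} [NeZero K] {ρ r s : ℝ}

/-- On each interval `[n / K, (n + 1) / K]` the loop stays `r`-close to its value at the left end. -/
def Sht (K : ℕ) (r : ℝ) (g : ℝ → M) : Prop :=
  ∀ (n : ℤ) (v : ℝ), v ∈ Icc (0 : ℝ) 1 → dist (g (n / K)) (g ((n + v) / K)) ≤ r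

omit [NeZero K] in
theorem Sht.mono {r' : ℝ} {g : ℝ → M} (h : Sht K r g) (hr : r ≤ r') : Sht K r' g :=
  fun n v hv => (h n v hv).trans hr

omit [NeZero K] in
theorem Sht.near {r₀ δ : ℝ} {g p : LM M} (hp : Sht K r₀ (fn p)) (hd : dist g p ≤ δ)
    (hr : r₀ + 2 * δ ≤ r) : Sht K r (fn g) := by
  intro n v hv
  have h1 := (dist_le_iff (dist_nonneg.trans hd)).1 hd
  calc dist (fn g (n / K)) (fn g ((n + v) / K)) ≤ dist (fn g (n / K)) (fn p (n / K)) +
        dist (fn p (n / K)) (fn p ((n + v) / K)) + dist (fn p ((n + v) / K)) (fn g ((n + v) / K)) :=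
        dist_triangle4 _ _ _ _
    _ ≤ δ + r₀ + δ := by
        refine add_le_add (add_le_add (h1 _) (hp n v hv)) ?_
        rw [dist_comm]
        exact h1 _
    _ ≤ r := by linarith

theorem Sht.step {g : ℝ → M} (hg : Function.Periodic g 1) (h : Sht K r g) (i : ZMod K) :
    dist (sample K g i) (sample K g (i + 1)) ≤ r := by
  obtain ⟨n, rfl⟩ : ∃ n : ℤ, (n : ZMod K) = i := ⟨(i.val : ℤ), by simp⟩
  have e1 : ((n : ZMod K) + 1) = ((n + 1 : ℤ) : ZMod K) := by push_cast; rfl
  rw [e1, sample_intCast hg, sample_intCast hg]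
  have := h n 1 ⟨zero_le_one, le_rfl⟩
  push_cast
  exact this

/-- The Milnor homotopy does not increase the energy (local version). -/
theorem hasE_Mi_loc {ρ r : ℝ} (h : UniqSeg M ρ) (hr : r < ρ) {g : ℝ → M}
    (hg : Function.Periodic g 1) {C : ℝ} (hC : HasE g C) (hS : Sht K r g) {τ : ℝ} (hτ : τ ∈ Icc (0 : ℝ) 1) :
    HasE (Mi K τ g) C := by
  have hK := cast_pos_K (K := K)
  rcases hτ.1.eq_or_lt with h0 | h0
  · rw [← h0, Mi_zero]; exact hC
  obtain ⟨e, he, h1, h2⟩ := hC.cert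
  have mono : ∀ s t, s ≤ t → e s ≤ e t := fun s t hst => (h1 s t).mono_fun le_rfl hst le_rfl
  have key := hasE_of_pieces (Mi_periodic (K := K) hg τ) (NeZero.pos K) (c := fun n t =>
    if t ≤ (n + τ) / K then (e ((n + τ) / K) - e (n / K)) * ((t - n / K) / ((n + τ) / K - n / K))
    else e t - e (n / K)) ?_
  · convert key using 1
    have h3 : ∀ n ∈ Finset.range K, ((if ((n : ℝ) + 1) / K ≤ (n + τ) / K then
        (e ((n + τ) / K) - e (n / K)) * ((((n : ℝ) + 1) / K - n / K) / ((n + τ) / K - n / K))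
        else e (((n : ℝ) + 1) / K) - e (n / K)) - (if (n : ℝ) / K ≤ (n + τ) / K then
        (e ((n + τ) / K) - e (n / K)) * (((n : ℝ) / K - n / K) / ((n + τ) / K - n / K))
        else e ((n : ℝ) / K) - e (n / K))) = e ((n + 1 : ℕ) / K) - e ((n : ℕ) / K) := by
      intro n _
      have h4 : (n : ℝ) / K ≤ (n + τ) / K := by gcongr; linarith
      rw [if_pos h4, sub_self, zero_div, mul_zero, sub_zero]
      push_cast
      by_cases h5 : ((n : ℝ) + 1) / K ≤ (n + τ) / K
      · have h6 : τ = 1 := by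
          have := (div_le_div_iff_of_pos_right hK).1 h5
          linarith [hτ.2]
        subst h6
        rw [if_pos le_rfl, div_self, mul_one]
        have : ((n : ℝ) + 1) / K - n / K = 1 / K := by ring
        rw [this]
        positivity
      · rw [if_neg h5]
    rw [Finset.sum_congr rfl h3, Finset.sum_range_sub (fun n : ℕ => e ((n : ℕ) / K))]
    have h7 := h2 0
    rw [zero_add, he] at h7
    rw [div_self hK.ne', h7, Nat.cast_zero, zero_div, he]
    linarith
  · intro n _
    have hlt : (n : ℝ) / K < (n + τ) / K := by gcongr; linarith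
    have hle : ((n : ℝ) + τ) / K ≤ (n + 1) / K := by gcongr; exact hτ.2
    have hd : dist (g (n / K)) (g ((n + τ) / K)) ^ 2 ≤
        ((n + τ) / K - n / K) * (e ((n + τ) / K) - e (n / K)) :=
      h1 (n / K) ((n + τ) / K) _ _ le_rfl hlt.le le_rfl
    have hdρ : dist (g (n / K)) (g ((n + τ) / K)) < ρ := by
      have := hS n τ hτ
      push_cast at this
      exact this.trans_lt hr
    apply Cert.glue (b := ((n : ℝ) + τ) / K)
    · have h3 := cert_seg h hdρ hlt hd
      refine h3.congr (fun t ht => ?_) fun t ht => by rw [if_pos ht.2]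
      have h4 : t = (((n : ℤ) : ℝ) + (K * t - n)) / K := by
        push_cast; field_simp; ring
      have h5 : (K : ℝ) * t - n ∈ Icc (0 : ℝ) 1 := by
        have h6 := ht.1
        have h7 := ht.2.trans hle
        rw [div_le_iff₀ hK] at h6
        rw [le_div_iff₀ hK] at h7
        constructor <;> linarith
      have h8 : (K : ℝ) * t - n ≤ τ := by
        have h7 := ht.2
        rw [le_div_iff₀ hK] at h7
        linarith
      conv_lhs => rw [h4]
      rw [Mi_apply g hτ n h5, max_eq_right h8]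
      have h9 : (t - n / K) / (((n : ℝ) + τ) / K - n / K) = (K * t - n) / τ := by
        rw [show ((n : ℝ) + τ) / K - n / K = τ / K by ring, div_eq_div_iff (by positivity) h0.ne']
        field_simp
      rw [h9]
      simp
    · have h3 : Cert g (fun t => e t - e (n / K)) ((n + τ) / K) ((n + 1) / K) := by
        intro s t hs hst ht
        have := h1 s t s t le_rfl hst le_rfl
        simpa using this
      refine h3.congr (fun t ht => ?_) fun t ht => ?_
      · have h4 : t = (((n : ℤ) : ℝ) + (K * t - n)) / K := by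
          push_cast; field_simp; ring
        have h5 : τ ≤ (K : ℝ) * t - n := by
          have h6 := ht.1
          rw [div_le_iff₀ hK] at h6
          linarith
        have h5' : (K : ℝ) * t - n ≤ 1 := by
          have h6 := ht.2
          rw [le_div_iff₀ hK] at h6
          linarith
        conv_lhs => rw [h4]
        have h6 : (K : ℝ) * t - n ≠ 0 := (h0.trans_le h5).ne'
        rw [Mi_apply g hτ n ⟨h0.le.trans h5, h5'⟩, max_eq_left h5, div_self h6, seg_one, ← h4]
      · by_cases h4 : t ≤ (n + τ) / K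
        · have h5 : t = (n + τ) / K := le_antisymm h4 ht.1
          rw [if_pos h4, h5, div_self (by linarith), mul_one]
        · rw [if_neg h4]

/-- Loops of energy at most `s ^ 2` with short steps. -/
def XS (M : Type*) [MetricSpace M] (K : ℕ) (r s : ℝ) : Set (LM M) :=
  {g | g ∈ XE M s ∧ Sht K r (fn g)}

/-- Polygons of energy at most `s ^ 2` with short steps. -/
def PS (M : Type*) [MetricSpace M] (K : ℕ) [NeZero K] (r s : ℝ) : Set (ZMod K → M) :=
  {x | x ∈ Pl M K s ∧ ∀ i, dist (x i) (x (i + 1)) ≤ r}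

omit [NeZero K] in
theorem isClosed_Sht : IsClosed {g : LM M | Sht K r (fn g)} := by
  have : {g : LM M | Sht K r (fn g)} = ⋂ (n : ℤ) (v : ℝ) (_ : v ∈ Icc (0 : ℝ) 1),
      {g : LM M | dist (fn g (n / K)) (fn g ((n + v) / K)) ≤ r} := by
    ext g
    simp only [Sht, mem_iInter]
    rfl
  rw [this]
  refine isClosed_iInter fun n => isClosed_iInter fun v => isClosed_iInter fun _ => ?_
  exact isClosed_le ((continuous_fn_left _).dist (continuous_fn_left _)) continuous_const

theorem isClosed_PS : IsClosed (PS M K r s) := by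
  have : IsClosed {x : ZMod K → M | ∀ i, dist (x i) (x (i + 1)) ≤ r} := by
    have e : {x : ZMod K → M | ∀ i, dist (x i) (x (i + 1)) ≤ r} =
        ⋂ i, {x : ZMod K → M | dist (x i) (x (i + 1)) ≤ r} := by
      ext x
      simp
    rw [e]
    exact isClosed_iInter fun i =>
      isClosed_le ((continuous_apply _).dist (continuous_apply _)) continuous_const
  exact (isClosed_Pl s).inter this

theorem sampleL_mem_PS {g : LM M} (hg : g ∈ XS M K r s) : sampleL K g ∈ PS M K r s :=
  ⟨sampleL_mem hg.1, fun i => hg.2.step (fn_periodic g) i⟩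

theorem fn_MiL_loc (h : UniqSeg M ρ) (hr : r < ρ) {g : LM M}
    (hg : g ∈ XS M K r s) {τ : ℝ} (hτ : τ ∈ Icc (0 : ℝ) 1) (t : ℝ) :
    fn (MiL K τ g) t = Mi K τ (fn g) t := by
  have h1 := HasE.continuous' (hasE_Mi_loc h hr (fn_periodic g) hg.1 hg.2 hτ)
  rw [MiL, dif_pos h1, fn_ofFn]

theorem MiL_mem_loc (h : UniqSeg M ρ) (hr : r < ρ) {g : LM M}
    (hg : g ∈ XS M K r s) {τ : ℝ} (hτ : τ ∈ Icc (0 : ℝ) 1) : MiL K τ g ∈ XE M s := by
  have h1 : fn (MiL K τ g) = Mi K τ (fn g) := funext (fn_MiL_loc h hr hg hτ)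
  rw [mem_XE, h1]
  exact hasE_Mi_loc h hr (fn_periodic g) hg.1 hg.2 hτ

theorem fn_itpL_loc (h : UniqSeg M ρ) {x : ZMod K → M} (hx : ∀ i, dist (x i) (x (i + 1)) < ρ)
    (t : ℝ) : fn (itpL x) t = itp x t := by
  have h1 := HasE.continuous' (hasE_itp h hx)
  rw [itpL, dif_pos h1, fn_ofFn]

theorem itpL_mem_loc (h : UniqSeg M ρ) (hr : r < ρ) {x : ZMod K → M}
    (hx : x ∈ PS M K r s) : itpL x ∈ XE M s := by
  have hx' : ∀ i, dist (x i) (x (i + 1)) < ρ := fun i => (hx.2 i).trans_lt hr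
  have h1 : fn (itpL x) = itp x := funext (fn_itpL_loc h hx')
  rw [mem_XE, h1]
  exact (hasE_itp h hx').mono hx.1

theorem sampleL_itpL_loc (h : UniqSeg M ρ) {x : ZMod K → M}
    (hx : ∀ i, dist (x i) (x (i + 1)) < ρ) : sampleL K (itpL x) = x := by
  have h1 : fn (itpL x) = itp x := funext (fn_itpL_loc h hx)
  rw [sampleL, h1, sample_itp]

theorem MiL_one_loc (h : UniqSeg M ρ) (hr : r < ρ) {g : LM M}
    (hg : g ∈ XS M K r s) : MiL K 1 g = itpL (sampleL K g) := by
  refine ext_fn fun t => ?_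
  rw [fn_MiL_loc h hr hg ⟨zero_le_one, le_rfl⟩, Mi_one (fn_periodic g),
    fn_itpL_loc h (fun i => ((sampleL_mem_PS hg).2 i).trans_lt hr), sampleL]

theorem continuousOn_itpL_loc [CompactSpace M] (h : UniqSeg M ρ) (hr : r < ρ) (h0 : 0 ≤ s) :
    ContinuousOn (itpL : (ZMod K → M) → LM M) (PS M K r s) := by
  refine continuousOn_of_pointwise h0 (fun x hx => itpL_mem_loc h hr hx) fun t => ?_
  obtain ⟨n, u, hu, rfl⟩ := exists_eq_div K t
  have h1 : ContinuousOn (fun x : ZMod K → M => seg (x n) (x (n + 1)) u) (PS M K r s) :=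
    ContinuousOn.seg h (continuous_apply _).continuousOn (continuous_apply _).continuousOn
      continuousOn_const (fun x hx => (hx.2 _).trans_lt hr) fun _ _ => hu
  refine h1.congr fun x hx => ?_
  rw [fn_itpL_loc h (fun i => (hx.2 i).trans_lt hr), itp_apply x n hu]

theorem continuousOn_MiL_loc [CompactSpace M] (h : UniqSeg M ρ) (hr : r < ρ) (h0 : 0 ≤ s) :
    ContinuousOn (fun p : ℝ × LM M => MiL K p.1 p.2) (Icc (0 : ℝ) 1 ×ˢ XS M K r s) := by
  refine continuousOn_of_pointwise h0 (fun p hp => MiL_mem_loc h hr hp.2 hp.1) fun t => ?_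
  obtain ⟨n, u, hu, rfl⟩ := exists_eq_div K t
  have hK := cast_pos_K (K := K)
  have key : ContinuousOn (fun p : ℝ × LM M =>
      seg (fn p.2 (n / K)) (fn p.2 ((n + max u p.1) / K)) (u / max u p.1))
      (Icc (0 : ℝ) 1 ×ˢ XS M K r s) := by
    rcases hu.1.eq_or_lt with h1 | h1
    · have h2 : ∀ p : ℝ × LM M, seg (fn p.2 ((n : ℝ) / K)) (fn p.2 ((n + max u p.1) / K))
          (u / max u p.1) = fn p.2 ((n : ℝ) / K) := by
        intro p
        rw [← h1, zero_div, seg_zero]
      simp only [h2]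
      exact ((continuous_fn_left _).comp continuous_snd).continuousOn
    · have hpos : ∀ p : ℝ × LM M, 0 < max u p.1 := fun p => lt_max_of_lt_left h1
      refine ContinuousOn.seg h ((continuous_fn_left _).comp continuous_snd).continuousOn
        (Continuous.continuousOn ?_) (Continuous.continuousOn ?_) (fun p hp => ?_) fun p _ => ?_
      · exact continuous_fn_apply.comp (continuous_snd.prodMk (by fun_prop))
      · exact continuous_const.div (by fun_prop) fun p => (hpos p).ne'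
      · exact (hp.2.2 n _ ⟨(hpos p).le, max_le hu.2 hp.1.2⟩).trans_lt hr
      · exact ⟨div_nonneg hu.1 (hpos p).le, (div_le_one (hpos p)).2 (le_max_left _ _)⟩
  refine key.congr fun p hp => ?_
  rw [fn_MiL_loc h hr hp.2 hp.1, Mi_apply _ hp.1 n hu]

theorem MiL_itpL_loc (h : UniqSeg M ρ) (hr : r < ρ) {x : ZMod K → M}
    (hx : x ∈ PS M K r s) (hS : Sht K r (fn (itpL x))) {τ : ℝ} (hτ : τ ∈ Icc (0 : ℝ) 1) :
    MiL K τ (itpL x) = itpL x := by
  have hx' : ∀ i, dist (x i) (x (i + 1)) < ρ := fun i => (hx.2 i).trans_lt hr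
  refine ext_fn fun t => ?_
  have h1 : fn (itpL x) = itp x := funext (fn_itpL_loc h hx')
  rw [fn_MiL_loc h hr ⟨itpL_mem_loc h hr hx, hS⟩ hτ, h1, Mi_itp h hx' hτ]

/-- Broken geodesics with short edges have short steps. -/
theorem Sht_itp (h : UniqSeg M ρ) (hr : r < ρ) {x : ZMod K → M}
    (hx : ∀ i, dist (x i) (x (i + 1)) ≤ r) : Sht K r (itp x) := by
  intro n v hv
  rw [itp_int, itp_apply x n hv, dist_left_seg h ((hx _).trans_lt hr) hv]
  exact (mul_le_of_le_one_left dist_nonneg hv.2).trans (hx _)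

/-- A homotopy which fixes `p` moves a small neighbourhood of `p` within a given one. -/
theorem exists_nbhd_fixed {X Y : Type*} [TopologicalSpace X] [TopologicalSpace Y]
    {F : ℝ → X → Y} {S : Set X} {p : X} {q : Y} (hp : p ∈ S)
    (hF : ContinuousOn (fun a : ℝ × X => F a.1 a.2) (Icc (0 : ℝ) 1 ×ˢ S))
    (hfix : ∀ τ ∈ Icc (0 : ℝ) 1, F τ p = q) {U : Set Y} (hU : U ∈ 𝓝 q) :
    ∃ V ∈ 𝓝 p, ∀ g ∈ V, g ∈ S → ∀ τ ∈ Icc (0 : ℝ) 1, F τ g ∈ U := by
  have h1 : ∀ τ ∈ Icc (0 : ℝ) 1, ∀ᶠ a : ℝ × X in 𝓝[Icc (0 : ℝ) 1] τ ×ˢ 𝓝[S] p,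
      F a.1 a.2 ∈ U := by
    intro τ hτ
    have h2 := hF (τ, p) ⟨hτ, hp⟩
    rw [ContinuousWithinAt, nhdsWithin_prod_eq] at h2
    refine h2.eventually ?_
    show ∀ᶠ y in 𝓝 (F τ p), y ∈ U
    rw [hfix τ hτ]
    exact hU
  have h2 : ∀ᶠ g in 𝓝[S] p, ∀ τ ∈ Icc (0 : ℝ) 1, F τ g ∈ U := by
    refine isCompact_Icc.induction_on (p := fun A => ∀ᶠ g in 𝓝[S] p, ∀ τ ∈ A, F τ g ∈ U)
      (by simp) (fun A B hAB hB => hB.mono fun g hg τ hτ => hg τ (hAB hτ))
      (fun A B hA hB => by
        filter_upwards [hA, hB] with g h1 h2 τ hτ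
        exact hτ.elim (h1 τ) (h2 τ)) fun τ hτ => ?_
    obtain ⟨P, hP, Q, hQ, hPQ⟩ := Filter.eventually_prod_iff.1 (h1 τ hτ)
    refine ⟨{a | P a}, hP, ?_⟩
    filter_upwards [hQ] with g hg a ha
    exact hPQ ha hg
  rw [eventually_nhdsWithin_iff] at h2
  exact ⟨_, h2, fun g hg => hg⟩

end Vale.Agent.P216.H844
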