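import Vale.Agent.P216.H844.F4
import Vale.Agent.P216.GM.Spec
import Vale.Agent.P216.GM.GM2

/-!
P216, block F4: the statement `GM.F4`.
-/

set_option maxSynthPendingDepth 3
set_option linter.unusedSectionVars false

open Set Filter Topology

namespace Vale.Agent.P216.H844

open Vale.Agent.P216.GM L250 LS H494

section Metric

variable {M : Type*} [MetricSpace M]

/-- A periodic geodesic is minimising on intervals of uniform length. -/
theorem exists_unif_min {c : ℝ → M} {v : ℝ} (h : IsGeodesicWithSpeed c v) {ℓ : ℝ} (hℓ : 0 < ℓ)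
    (hper : Function.Periodic c ℓ) :
    ∃ δ > 0, ∀ s s' : ℝ, |s - s'| < δ → dist (c s) (c s') = v * |s - s'| := by
  choose ε hε H using h
  obtain ⟨δ, hδ, hδ'⟩ := lebesgue_number_lemma_of_metric (s := Icc (0 : ℝ) ℓ)
    (c := fun t : ℝ => Metric.ball t (ε t)) isCompact_Icc (fun t => Metric.isOpen_ball)
    fun t _ => mem_iUnion.2 ⟨t, Metric.mem_ball_self (hε t)⟩
  refine ⟨δ, hδ, fun s s' hss => ?_⟩
  obtain ⟨n, hn⟩ : ∃ n : ℤ, s - n * ℓ ∈ Icc (0 : ℝ) ℓ := by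
    refine ⟨⌊s / ℓ⌋, ?_, ?_⟩
    · have := Int.floor_le (s / ℓ)
      rw [le_div_iff₀ hℓ] at this
      linarith
    · have := Int.lt_floor_add_one (s / ℓ)
      rw [div_lt_iff₀ hℓ] at this
      linarith
  obtain ⟨t, ht⟩ := hδ' _ hn
  have h1 : |s - n * ℓ - t| < ε t := by
    have := ht (Metric.mem_ball_self hδ)
    rwa [Metric.mem_ball, Real.dist_eq] at this
  have h2 : |s' - n * ℓ - t| < ε t := by
    have h3 : s' - n * ℓ ∈ Metric.ball (s - n * ℓ) δ := by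
      rw [Metric.mem_ball, Real.dist_eq, abs_sub_comm]
      have : s - n * ℓ - (s' - n * ℓ) = s - s' := by ring
      rwa [this]
    have := ht h3
    rwa [Metric.mem_ball, Real.dist_eq] at this
  have h4 := H t _ _ h1 h2
  have e1 : c (s - n * ℓ) = c s := by
    have := hper.int_mul n (s - n * ℓ)
    rw [sub_add_cancel] at this
    exact this.symm
  have e2 : c (s' - n * ℓ) = c s' := by
    have := hper.int_mul n (s' - n * ℓ)
    rw [sub_add_cancel] at this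
    exact this.symm
  rw [e1, e2] at h4
  rw [h4]
  congr 2
  ring

end Metric

section Gpol

variable {M : Type} [MetricSpace M] (G : GeoList M)

theorem gpol_intCast {e : ℝ} (he : e = 1 ∨ e = -1) (j : G.ι) {k₀ : ℕ} [NeZero k₀] (n : ℤ) :
    gpol M G e j k₀ (n : ZMod k₀) = G.c j (e * G.ℓ j * (n / k₀)) := by
  unfold gpol
  have hk : (k₀ : ℝ) ≠ 0 := Nat.cast_ne_zero.2 (NeZero.ne k₀)
  have h1 : ((n : ZMod k₀).val : ℤ) = n % k₀ := ZMod.val_intCast n
  have h2 : (((n : ZMod k₀).val : ℕ) : ℝ) = n - k₀ * (n / k₀ : ℤ) := by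
    have h3 : (((n : ZMod k₀).val : ℤ) : ℝ) = ((n % k₀ : ℤ) : ℝ) := by rw [h1]
    rw [Int.emod_def] at h3
    push_cast at h3
    exact_mod_cast h3
  rw [h2]
  have h4 : e * G.ℓ j * (((n : ℝ) - k₀ * (n / k₀ : ℤ)) / k₀) =
      e * G.ℓ j * (n / k₀) - e * (n / k₀ : ℤ) * G.ℓ j := by
    field_simp
  rw [h4]
  rcases he with rfl | rfl
  · have := (G.per j).int_mul (n / k₀) (1 * G.ℓ j * (n / k₀) - 1 * (n / k₀ : ℤ) * G.ℓ j)
    rw [← this]
    congr 1
    ring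
  · have := (G.per j).int_mul (n / k₀) (-1 * G.ℓ j * (n / k₀))
    rw [← this]
    congr 1
    ring

theorem sampleL_rep {e : ℝ} (he : e = 1 ∨ e = -1) (j : G.ι) {k₀ m : ℕ} [NeZero k₀]
    [NeZero (k₀ * m)] (hm : 0 < m) {g : LM M}
    (hg : ∀ t, fn g t = G.c j (e * (m * G.ℓ j) * t)) (h : k₀ ∣ k₀ * m) :
    sampleL (k₀ * m) g = rep (k₀ * m) h (gpol M G e j k₀) := by
  funext i
  have hk : (k₀ : ℝ) ≠ 0 := Nat.cast_ne_zero.2 (NeZero.ne k₀)
  have hm' : (m : ℝ) ≠ 0 := Nat.cast_ne_zero.2 hm.ne'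
  show fn g (i.val / (k₀ * m : ℕ)) = gpol M G e j k₀ (cst h i)
  have h1 : cst h i = ((i.val : ℤ) : ZMod k₀) := by
    conv_lhs => rw [← ZMod.natCast_zmod_val i]
    rw [cst_natCast]
    norm_cast
  rw [h1, gpol_intCast G he j, hg]
  congr 1
  push_cast
  field_simp

end Gpol

noncomputable section Geom

open Bundle Manifold
open scoped Manifold ContDiff
open Vale.Agent.P234 Vale.Agent.P216.Geo

variable {E : Type} [NormedAddCommGroup E] [NormedSpace ℝ E] [FiniteDimensional ℝ E]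
  {M : Type} [MetricSpace M] [CompactSpace M] [ChartedSpace E M]
  [RiemannianBundle (fun x : M => TangentSpace 𝓘(ℝ, E) x)]
  [IsManifold 𝓘(ℝ, E) ∞ M]
  [IsContMDiffRiemannianBundle 𝓘(ℝ, E) ∞ E (fun x : M => TangentSpace 𝓘(ℝ, E) x)]

theorem f4_spec (hGM2 : GM2Stmt) {ε : ℝ} {e₀ : ∀ x : M, TangentSpace 𝓘(ℝ, E) x → M}
    {L : ∀ x : M, M → TangentSpace 𝓘(ℝ, E) x} (h : NearExp ε e₀ L) : F4 M := by
  intro G e he j N₀
  obtain ⟨δ, hδ, hmin⟩ := exists_unif_min (G.geo j) (G.ℓ_pos j) (G.per j)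
  have hℓ := G.ℓ_pos j
  obtain ⟨k₀, hk₀⟩ := exists_nat_gt (max (max (N₀ : ℝ) (G.ℓ j / δ)) (max (G.ℓ j / ε) 0))
  have a1 : (N₀ : ℝ) < k₀ := ((le_max_left _ _).trans (le_max_left _ _)).trans_lt hk₀
  have a2 : G.ℓ j / δ < k₀ := ((le_max_right _ _).trans (le_max_left _ _)).trans_lt hk₀
  have a3 : G.ℓ j / ε < k₀ := ((le_max_left _ _).trans (le_max_right _ _)).trans_lt hk₀
  have a4 : (0 : ℝ) < k₀ := ((le_max_right _ _).trans (le_max_right _ _)).trans_lt hk₀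
  have hk0 : 0 < k₀ := by exact_mod_cast a4
  have : NeZero k₀ := ⟨hk0.ne'⟩
  rw [div_lt_iff₀ hδ] at a2
  rw [div_lt_iff₀ h.pos] at a3
  have hstep : ∀ i : ZMod k₀,
      dist (gpol M G e j k₀ i) (gpol M G e j k₀ (i + 1)) = G.ℓ j / k₀ := by
    intro i
    obtain ⟨n, rfl⟩ := ZMod.intCast_surjective i
    have h1 : ((n : ZMod k₀) + 1) = ((n + 1 : ℤ) : ZMod k₀) := by push_cast; rfl
    rw [h1, gpol_intCast G he j, gpol_intCast G he j]
    have h2 : |e * G.ℓ j * ((n : ℝ) / k₀) - e * G.ℓ j * (((n + 1 : ℤ) : ℝ) / k₀)| =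
        G.ℓ j / k₀ := by
      have h3 : e * G.ℓ j * ((n : ℝ) / k₀) - e * G.ℓ j * (((n + 1 : ℤ) : ℝ) / k₀) =
          -e * (G.ℓ j / k₀) := by
        push_cast
        field_simp
        ring
      rw [h3, abs_mul, abs_of_pos (show 0 < G.ℓ j / k₀ by positivity)]
      rcases he with rfl | rfl <;> simp
    rw [hmin _ _ (by rw [h2, div_lt_iff₀ a4]; linarith), h2, one_mul]
  have hE : LS.E (gpol M G e j k₀) = G.ℓ j ^ 2 := by
    unfold LS.E
    simp only [hstep, Finset.sum_const, Finset.card_univ, ZMod.card, nsmul_eq_mul]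
    field_simp
  obtain ⟨D₀, hD₀, H⟩ := f4 hGM2 h (x := gpol M G e j k₀)
    (fun i => by rw [hstep, div_lt_iff₀ a4]; linarith) hℓ hE
  refine ⟨k₀, by exact_mod_cast a1.le, D₀, hD₀, ?_⟩
  intro m hm g g' hg hg' _ _ D hLR
  rw [sampleL_rep G he j (Nat.gcd_pos_of_pos_left _ hm) hg' (Dvd.intro _ rfl)] at hLR
  rw [sampleL_rep G he j hm hg (Dvd.intro _ rfl)]
  exact H m _ _ inferInstance inferInstance _ _ _ _ D hm rfl rfl (fun s hs => PL_eq hs.le)
    (fun s hs => PL_eq hs.le) hLR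

variable [IsRiemannianManifold 𝓘(ℝ, E) M]

variable (E M) in
include E in
/-- **F4** modulo GM2. -/
theorem f4_of_gm2 (hGM2 : GM2Stmt) : F4 M := by
  intro G e he j N₀
  have : Nonempty M := ⟨G.c j 0⟩
  obtain ⟨ε, e₀, L, h⟩ := Geo.exists_near (E := E) (M := M)
  exact f4_spec hGM2 h G e he j N₀

theorem gm2Stmt : GM2Stmt := by
  intro Y Z _ _ _ _ _ _ F hF h0 hnd D h
  exact G447.gm2 F hF.self_of_nhds h0 hnd h

variable (E M) in
include E in
/-- **F4.** -/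
theorem f4_M : F4 M := f4_of_gm2 E M gm2Stmt

end Geom

end Vale.Agent.P216.H844
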