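import Mathlib.Analysis.Calculus.ContDiff.FiniteDimension
import Mathlib.Analysis.Calculus.ContDiff.Basic
import Mathlib.Data.ZMod.Basic
import Mathlib.Tactic
import Vale.Agent.P216.H391.Period

/-!
P216, block GM5: the Hessian of a cyclic sum `∑ e i (x i, x (i + 1))` at an iterated point.
-/

open Set Filter Topology
open scoped ContDiff

namespace Vale.Agent.P216.H844

section Hess

variable {V W : Type*} [NormedAddCommGroup V] [NormedSpace ℝ V] [NormedAddCommGroup W]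
  [NormedSpace ℝ W]

/-- The second derivative. -/
noncomputable def hs (f : V → ℝ) (x : V) : V →L[ℝ] V →L[ℝ] ℝ := fderiv ℝ (fderiv ℝ f) x

theorem hs_comp {f : W → ℝ} (L : V →L[ℝ] W) {x : V} (hf : ContDiffAt ℝ 2 f (L x)) (a b : V) :
    hs (fun y => f (L y)) x a b = hs f (L x) (L a) (L b) := by
  have h1 : ∀ᶠ y in 𝓝 (L x), ContDiffAt ℝ 2 f y := hf.eventually (by simp)
  have h2 : (fderiv ℝ fun y => f (L y)) =ᶠ[𝓝 x] fun y => (fderiv ℝ f (L y)).comp L := by
    filter_upwards [L.continuous.continuousAt.eventually h1] with y hy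
    exact ((hy.differentiableAt (by simp)).hasFDerivAt.comp y L.hasFDerivAt).fderiv
  have h3 : HasFDerivAt (fderiv ℝ f) (fderiv ℝ (fderiv ℝ f) (L x)) (L x) :=
    ((hf.fderiv_right (m := 1) (by norm_num)).differentiableAt (by simp)).hasFDerivAt
  have h4 : HasFDerivAt (fun y => fderiv ℝ f (L y)) ((fderiv ℝ (fderiv ℝ f) (L x)).comp L) x :=
    h3.comp x L.hasFDerivAt
  have h5 := (h4.clm_comp (hasFDerivAt_const L x)).fderiv
  unfold hs
  rw [h2.fderiv_eq, h5]
  simp

theorem hs_sum {ι : Type*} (s : Finset ι) {f : ι → V → ℝ} {x : V}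
    (hf : ∀ i ∈ s, ContDiffAt ℝ 2 (f i) x) :
    hs (fun y => ∑ i ∈ s, f i y) x = ∑ i ∈ s, hs (f i) x := by
  have h1 : ∀ᶠ y in 𝓝 x, ∀ i ∈ s, ContDiffAt ℝ 2 (f i) y :=
    (Filter.eventually_all_finset s).2 fun i hi => (hf i hi).eventually (by simp)
  have h2 : (fderiv ℝ fun y => ∑ i ∈ s, f i y) =ᶠ[𝓝 x] fun y => ∑ i ∈ s, fderiv ℝ (f i) y := by
    filter_upwards [h1] with y hy
    exact fderiv_fun_sum fun i hi => (hy i hi).differentiableAt (by simp)
  unfold hs
  rw [h2.fderiv_eq]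
  exact fderiv_fun_sum fun i hi =>
    ((hf i hi).fderiv_right (m := 1) (by norm_num)).differentiableAt (by simp)

end Hess

section Avg

variable {V : Type*} [AddCommGroup V] [Module ℝ V]

/-- A bilinear form whose kernel consists of fixed vectors of a symmetry `R` of finite order is
nondegenerate on the complement `{∑ R^j ζ = 0}` of the fixed space. -/
theorem nondeg_of_ker (B : V →ₗ[ℝ] V →ₗ[ℝ] ℝ) (R : V →ₗ[ℝ] V) {q : ℕ} (hq : 0 < q)
    (hR : R ^ q = 1) (hB : ∀ a b, B (R a) (R b) = B a b)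
    (hker : ∀ ξ, (∀ η, B ξ η = 0) → R ξ = ξ) (ζ : V)
    (h0 : ∑ j ∈ Finset.range q, (R ^ j) ζ = 0)
    (hζ : ∀ ζ', ∑ j ∈ Finset.range q, (R ^ j) ζ' = 0 → B ζ ζ' = 0) : ζ = 0 := by
  have hq' : (q : ℝ) ≠ 0 := Nat.cast_ne_zero.2 hq.ne'
  -- the sum over the orbit is fixed
  have hfix : ∀ v, R (∑ j ∈ Finset.range q, (R ^ j) v) = ∑ j ∈ Finset.range q, (R ^ j) v := by
    intro v
    have h1 : R (∑ j ∈ Finset.range q, (R ^ j) v) = ∑ j ∈ Finset.range q, (R ^ (j + 1)) v := by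
      rw [map_sum]
      refine Finset.sum_congr rfl fun j _ => ?_
      rw [pow_succ', Module.End.mul_apply]
    have h2 := Finset.sum_range_succ (fun j => (R ^ j) v) q
    have h3 := Finset.sum_range_succ' (fun j => (R ^ j) v) q
    rw [h2, hR] at h3
    simp only [pow_zero, Module.End.one_apply] at h3
    rw [h1]
    exact (add_right_cancel h3).symm
  have hpow : ∀ (j : ℕ) {y : V}, R y = y → (R ^ j) y = y := by
    intro j y hy
    induction j with
    | zero => simp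
    | succ j ih => rw [pow_succ', Module.End.mul_apply, ih, hy]
  have hBpow : ∀ (j : ℕ) a b, B ((R ^ j) a) ((R ^ j) b) = B a b := by
    intro j a b
    induction j with
    | zero => simp
    | succ j ih => rw [pow_succ', Module.End.mul_apply, Module.End.mul_apply, hB, ih]
  have hy : ∀ y, R y = y → B ζ y = 0 := by
    intro y hy
    have h1 : B (∑ j ∈ Finset.range q, (R ^ j) ζ) y = q * B ζ y := by
      rw [map_sum, LinearMap.sum_apply]
      have : ∀ j ∈ Finset.range q, B ((R ^ j) ζ) y = B ζ y := by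
        intro j _
        conv_lhs => rw [← hpow j hy]
        exact hBpow j ζ y
      rw [Finset.sum_congr rfl this, Finset.sum_const, Finset.card_range, nsmul_eq_mul]
    rw [h0, map_zero, LinearMap.zero_apply] at h1
    exact (mul_eq_zero.1 h1.symm).resolve_left hq'
  have hall : ∀ η, B ζ η = 0 := by
    intro η
    set s := ∑ j ∈ Finset.range q, (R ^ j) η with hs
    have h1 : ∑ j ∈ Finset.range q, (R ^ j) (η - (q : ℝ)⁻¹ • s) = 0 := by
      simp only [map_sub, map_smul, Finset.sum_sub_distrib]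
      rw [← hs, Finset.sum_congr rfl fun j _ => by rw [hpow j (hfix η)], Finset.sum_const,
        Finset.card_range, ← Nat.cast_smul_eq_nsmul ℝ, smul_smul, mul_inv_cancel₀ hq', one_smul,
        sub_self]
    have h2 := hζ _ h1
    rw [map_sub, map_smul, hy s (hfix η), smul_zero, sub_zero] at h2
    exact h2
  have h3 := hker ζ hall
  rw [Finset.sum_congr rfl fun j _ => by rw [hpow j h3], Finset.sum_const, Finset.card_range,
    ← Nat.cast_smul_eq_nsmul ℝ] at h0
  exact (smul_eq_zero.1 h0).resolve_left hq'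

end Avg

section Cyc

variable {E : Type*} [NormedAddCommGroup E] [NormedSpace ℝ E]

/-- The reduction `ℤ / K → ℤ / k₀`. -/
def cst {k₀ K : ℕ} (h : k₀ ∣ K) : ZMod K →+* ZMod k₀ := ZMod.castHom h (ZMod k₀)

theorem cst_intCast {k₀ K : ℕ} (h : k₀ ∣ K) (n : ℤ) : cst h (n : ZMod K) = (n : ZMod k₀) :=
  map_intCast _ _

theorem cst_natCast {k₀ K : ℕ} (h : k₀ ∣ K) (n : ℕ) : cst h (n : ZMod K) = (n : ZMod k₀) :=
  map_natCast _ _

theorem cst_cst {k₀ K' K : ℕ} (h : k₀ ∣ K') (h' : K' ∣ K) (i : ZMod K) :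
    cst h (cst h' i) = cst (h.trans h') i := by
  obtain ⟨n, rfl⟩ := ZMod.intCast_surjective i
  rw [cst_intCast, cst_intCast, cst_intCast]

/-- The cyclic sum. -/
noncomputable def cyc {k₀ K : ℕ} (h : k₀ ∣ K) [NeZero K] (e : ZMod k₀ → E × E → ℝ)
    (x : ZMod K → E) : ℝ := ∑ i, e (cst h i) (x i, x (i + 1))

/-- The shift by `a`. -/
def sh {K : ℕ} (a : ZMod K) : (ZMod K → E) →L[ℝ] (ZMod K → E) :=
  ContinuousLinearMap.pi fun i => ContinuousLinearMap.proj (i + a)

theorem sh_apply {K : ℕ} (a : ZMod K) (x : ZMod K → E) (i : ZMod K) : sh a x i = x (i + a) := rfl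

theorem sh_pow {K : ℕ} (a : ZMod K) (j : ℕ) :
    (sh a : (ZMod K → E) →L[ℝ] (ZMod K → E)) ^ j = sh ((j : ZMod K) * a) := by
  induction j with
  | zero => ext x i; simp [sh_apply]
  | succ j ih =>
    rw [pow_succ', ih]
    ext x i
    show x (i + a + j * a) = x (i + ((j + 1 : ℕ) : ZMod K) * a)
    congr 1
    push_cast
    ring

/-- The pair of neighbours. -/
def pr {K : ℕ} (i : ZMod K) : (ZMod K → E) →L[ℝ] E × E :=
  (ContinuousLinearMap.proj i).prod (ContinuousLinearMap.proj (i + 1))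

theorem pr_apply {K : ℕ} (i : ZMod K) (x : ZMod K → E) : pr i x = (x i, x (i + 1)) := rfl

variable {k₀ K : ℕ} (h : k₀ ∣ K) [NeZero K] {e : ZMod k₀ → E × E → ℝ}

theorem cyc_sh (a : ZMod K) (ha : cst h a = 0) (x : ZMod K → E) :
    cyc h e (sh a x) = cyc h e x := by
  unfold cyc
  refine Fintype.sum_equiv (Equiv.addRight a) _ _ fun i => ?_
  simp only [Equiv.coe_addRight, map_add, ha, add_zero, sh_apply]
  rw [add_right_comm i 1 a]

theorem contDiffAt_cyc {n : WithTop ℕ∞} {x : ZMod K → E}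
    (he : ∀ i, ContDiffAt ℝ n (e (cst h i)) (x i, x (i + 1))) : ContDiffAt ℝ n (cyc h e) x := by
  unfold cyc
  refine ContDiffAt.sum fun i _ => ?_
  exact ContDiffAt.comp (g := e (cst h i)) (f := fun x : ZMod K → E => pr i x) x (he i)
    (pr (E := E) i).contDiff.contDiffAt

theorem hs_cyc (he : ∀ i, ContDiffAt ℝ 2 (e i) 0) (ξ η : ZMod K → E) :
    hs (cyc h e) 0 ξ η = ∑ i, hs (e (cst h i)) 0 (ξ i, ξ (i + 1)) (η i, η (i + 1)) := by
  have h1 : hs (cyc h e) 0 = ∑ i, hs (fun x : ZMod K → E => e (cst h i) (pr i x)) 0 := by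
    unfold cyc
    exact hs_sum _ fun i _ => ContDiffAt.comp (g := e (cst h i))
      (f := fun x : ZMod K → E => pr i x) 0 (by rw [map_zero]; exact he _)
      (pr (E := E) i).contDiff.contDiffAt
  rw [h1]
  simp only [_root_.sum_apply]
  refine Finset.sum_congr rfl fun i _ => ?_
  rw [hs_comp (pr (E := E) i) (by rw [map_zero]; exact he _), map_zero]
  rfl

/-- The three-term recurrence satisfied by a null vector. -/
theorem rec_of_null (he : ∀ i, ContDiffAt ℝ 2 (e i) 0) {ξ : ZMod K → E}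
    (hξ : ∀ η, hs (cyc h e) 0 ξ η = 0) (j : ZMod K) (v : E) :
    hs (e (cst h (j - 1))) 0 (ξ (j - 1), ξ j) (0, v) +
      hs (e (cst h j)) 0 (ξ j, ξ (j + 1)) (v, 0) = 0 := by
  classical
  have h1 := hξ (Pi.single j v)
  rw [hs_cyc h he] at h1
  have h2 : ∀ i, hs (e (cst h i)) 0 (ξ i, ξ (i + 1))
      ((Pi.single j v : ZMod K → E) i, (Pi.single j v : ZMod K → E) (i + 1)) =
      hs (e (cst h i)) 0 (ξ i, ξ (i + 1)) ((Pi.single j v : ZMod K → E) i, 0) +
      hs (e (cst h i)) 0 (ξ i, ξ (i + 1)) (0, (Pi.single j v : ZMod K → E) (i + 1)) := by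
    intro i
    rw [← map_add, Prod.mk_add_mk, add_zero, zero_add]
  rw [Finset.sum_congr rfl fun i _ => h2 i, Finset.sum_add_distrib,
    Finset.sum_eq_single j, Finset.sum_eq_single (j - 1)] at h1
  · simpa [add_comm] using h1
  · intro i _ hi
    have : i + 1 ≠ j := fun hh => hi (by rw [← hh]; ring)
    rw [Pi.single_eq_of_ne this]
    have : ((0 : E), (0 : E)) = 0 := rfl
    rw [this, map_zero]
  · simp
  · intro i _ hi
    rw [Pi.single_eq_of_ne hi]
    have : ((0 : E), (0 : E)) = 0 := rfl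
    rw [this, map_zero]
  · simp

end Cyc

section Main

variable {E : Type*} [NormedAddCommGroup E] [NormedSpace ℝ E] [FiniteDimensional ℝ E]

/-- The recurrence operator. -/
noncomputable def recL {k₀ : ℕ} (e : ZMod k₀ → E × E → ℝ) (n : ℤ) :
    (E × E × E) →ₗ[ℝ] (E →L[ℝ] ℝ) where
  toFun p := (hs (e ((n - 1 : ℤ) : ZMod k₀)) 0 (p.1, p.2.1)).comp (ContinuousLinearMap.inr ℝ E E) +
    (hs (e (n : ZMod k₀)) 0 (p.2.1, p.2.2)).comp (ContinuousLinearMap.inl ℝ E E)
  map_add' p q := by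
    ext v
    have h1 : ((p + q).1, (p + q).2.1) = (p.1, p.2.1) + (q.1, q.2.1) := rfl
    have h2 : ((p + q).2.1, (p + q).2.2) = (p.2.1, p.2.2) + (q.2.1, q.2.2) := rfl
    rw [h1, h2]
    simp only [map_add, ContinuousLinearMap.add_apply, ContinuousLinearMap.comp_apply]
    ring
  map_smul' c p := by
    ext v
    have h1 : ((c • p).1, (c • p).2.1) = c • (p.1, p.2.1) := rfl
    have h2 : ((c • p).2.1, (c • p).2.2) = c • (p.2.1, p.2.2) := rfl
    rw [h1, h2]
    simp only [map_smul, ContinuousLinearMap.add_apply, ContinuousLinearMap.comp_apply,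
      ContinuousLinearMap.smul_apply, RingHom.id_apply, smul_eq_mul]
    ring

theorem recL_apply {k₀ : ℕ} (e : ZMod k₀ → E × E → ℝ) (n : ℤ) (p : E × E × E) (v : E) :
    recL e n p v = hs (e ((n - 1 : ℤ) : ZMod k₀)) 0 (p.1, p.2.1) (0, v) +
      hs (e (n : ZMod k₀)) 0 (p.2.1, p.2.2) (v, 0) := rfl

/-- **Null vectors of the Hessian at an iterate have a common period.** -/
theorem exists_period {k₀ : ℕ} {e : ZMod k₀ → E × E → ℝ}
    (he : ∀ i, ContDiffAt ℝ 2 (e i) 0)
    (tr : ∀ i η, (∀ ξ, hs (e i) 0 (0, η) (ξ, 0) = 0) → η = 0)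
    (tl : ∀ i ξ, (∀ η, hs (e i) 0 (ξ, 0) (0, η) = 0) → ξ = 0) :
    ∃ D : ℕ, 0 < D ∧ ∀ (m K : ℕ) (h : k₀ ∣ K) (_ : NeZero K), 0 < m → K = k₀ * m →
      ∀ ξ : ZMod K → E, (∀ η, hs (cyc h e) 0 ξ η = 0) →
        sh ((k₀ * m.gcd D : ℕ) : ZMod K) ξ = ξ := by
  obtain ⟨D, hD, H⟩ := H391.exists_period_bound (K := ℝ) (L := recL e)
    (fun n z hz => tr (n : ZMod k₀) z fun ξ => by
      have h1 : recL e n (0, 0, z) ξ = 0 := by rw [hz]; rfl
      rw [recL_apply] at h1
      have h0 : ((0 : E), (0 : E)) = 0 := rfl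
      simpa [h0] using h1)
    (fun n x hx => tl ((n - 1 : ℤ) : ZMod k₀) x fun η => by
      have h1 : recL e n (x, 0, 0) η = 0 := by rw [hx]; rfl
      rw [recL_apply] at h1
      have h0 : ((0 : E), (0 : E)) = 0 := rfl
      simpa [h0] using h1)
    k₀ (fun n => by
      apply LinearMap.ext
      intro p
      ext v
      rw [recL_apply, recL_apply]
      have h1 : ((n + k₀ - 1 : ℤ) : ZMod k₀) = ((n - 1 : ℤ) : ZMod k₀) := by
        push_cast; simp
      have h2 : ((n + k₀ : ℤ) : ZMod k₀) = (n : ZMod k₀) := by push_cast; simp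
      rw [h1, h2])
  refine ⟨D, hD, ?_⟩
  rintro m K h hK hm rfl ξ hξ
  have h1 := H m hm (fun n => ξ (n : ZMod (k₀ * m))) (fun n => by
      ext v
      rw [recL_apply]
      have h2 := rec_of_null h he hξ (n : ZMod (k₀ * m)) v
      have e1 : ((n : ZMod (k₀ * m)) - 1) = ((n - 1 : ℤ) : ZMod (k₀ * m)) := by push_cast; ring
      have e2 : ((n : ZMod (k₀ * m)) + 1) = ((n + 1 : ℤ) : ZMod (k₀ * m)) := by push_cast; ring
      rw [e1, e2, cst_intCast, cst_intCast] at h2
      exact h2) (fun n => by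
      congr 1
      push_cast
      have : ((m : ZMod (k₀ * m)) * (k₀ : ZMod (k₀ * m))) = 0 := by
        rw [mul_comm, ← Nat.cast_mul, ZMod.natCast_self]
      rw [this, add_zero])
  funext i
  obtain ⟨n, rfl⟩ := ZMod.intCast_surjective i
  rw [sh_apply, ← h1 n]
  congr 1
  push_cast
  ring

/-- **GM5, calculus half.** -/
theorem exists_nondeg {k₀ : ℕ} {e : ZMod k₀ → E × E → ℝ}
    (he : ∀ i, ContDiffAt ℝ 2 (e i) 0)
    (tr : ∀ i η, (∀ ξ, hs (e i) 0 (0, η) (ξ, 0) = 0) → η = 0)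
    (tl : ∀ i ξ, (∀ η, hs (e i) 0 (ξ, 0) (0, η) = 0) → ξ = 0) :
    ∃ D : ℕ, 0 < D ∧ ∀ (m K : ℕ) (h : k₀ ∣ K) (_ : NeZero K), 0 < m → K = k₀ * m →
      ∀ ζ : ZMod K → E,
        ∑ j ∈ Finset.range (m / m.gcd D), ((sh ((k₀ * m.gcd D : ℕ) : ZMod K)) ^ j) ζ = 0 →
        (∀ ζ' : ZMod K → E,
          ∑ j ∈ Finset.range (m / m.gcd D), ((sh ((k₀ * m.gcd D : ℕ) : ZMod K)) ^ j) ζ' = 0 →
            hs (cyc h e) 0 ζ ζ' = 0) → ζ = 0 := by
  obtain ⟨D, hD, H⟩ := exists_period he tr tl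
  refine ⟨D, hD, ?_⟩
  rintro m K h hK hm rfl ζ h0 hζ
  set d := m.gcd D with hd
  have hd0 : 0 < d := Nat.gcd_pos_of_pos_left _ hm
  have hdm : m / d * d = m := Nat.div_mul_cancel (Nat.gcd_dvd_left m D)
  have hq : 0 < m / d := Nat.div_pos (Nat.le_of_dvd hm (Nat.gcd_dvd_left m D)) hd0
  set R : (ZMod (k₀ * m) → E) →L[ℝ] (ZMod (k₀ * m) → E) := sh ((k₀ * d : ℕ) : ZMod (k₀ * m))
    with hR
  have hpow : ∀ (j : ℕ) (v : ZMod (k₀ * m) → E), (R.toLinearMap ^ j) v = (R ^ j) v := by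
    intro j v
    induction j with
    | zero => rfl
    | succ j ih => rw [pow_succ', pow_succ', Module.End.mul_apply, ih]; rfl
  refine nondeg_of_ker
    ((ContinuousLinearMap.coeLM ℝ).comp (hs (cyc h e) 0).toLinearMap) R.toLinearMap hq
    ?_ ?_ ?_ ζ ?_ ?_
  · apply LinearMap.ext
    intro v
    rw [hpow, hR, sh_pow]
    funext i
    rw [sh_apply, ← Nat.cast_mul]
    have : m / d * (k₀ * d) = k₀ * m := by
      rw [mul_left_comm, hdm]
    rw [this, ZMod.natCast_self, add_zero]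
    rfl
  · intro a b
    show hs (cyc h e) 0 (R a) (R b) = hs (cyc h e) 0 a b
    have h1 : (fun y => cyc h e (R y)) = cyc h e := by
      funext y
      refine cyc_sh h _ ?_ y
      rw [cst_natCast]
      push_cast
      simp
    have h2 := hs_comp (f := cyc h e) R (x := 0) (by
      rw [map_zero]
      exact contDiffAt_cyc h fun i => he _) a b
    rw [h1, map_zero] at h2
    exact h2.symm
  · intro ξ hξ
    exact H m (k₀ * m) h hK hm rfl ξ hξ
  · rw [Finset.sum_congr rfl fun j _ => hpow j ζ]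
    exact h0
  · intro ζ' h'
    rw [Finset.sum_congr rfl fun j _ => hpow j ζ'] at h'
    exact hζ ζ' h'

end Main

end Vale.Agent.P216.H844
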