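import Vale.Agent.P216.Smooth.Twist
import Vale.Agent.P216.H844.Hess

/-!
P216, block GM5: charts of the space of polygons at a short polygon, and nondegeneracy of the
Hessian of the energy in the directions transversal to the iterates.
-/

set_option maxSynthPendingDepth 3
set_option linter.unusedSectionVars false

open Bundle Manifold Set Filter
open scoped ContDiff Manifold Topology
open Vale.Agent.P234 Vale.Agent.P216.Geo

namespace Vale.Agent.P216.H844

noncomputable section

variable {E : Type*} [NormedAddCommGroup E] [NormedSpace ℝ E] [FiniteDimensional ℝ E]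
  {M : Type*} [MetricSpace M] [ChartedSpace E M]

/-- Coordinates of the base point of a chart. -/
def bp (E : Type*) [NormedAddCommGroup E] [NormedSpace ℝ E] {M : Type*} [MetricSpace M]
    [ChartedSpace E M] (p : M) : E := extChartAt 𝓘(ℝ, E) p p

theorem bp_mem (p : M) : bp E p ∈ (extChartAt 𝓘(ℝ, E) p).target := mem_extChartAt_target p

theorem ich_bp (p : M) : ich E p (bp E p) = p := extChartAt_to_inv p

/-- The polygon with centred coordinates `ξ` in the charts at the vertices of `x`. -/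
def pol {k₀ K : ℕ} (x : ZMod k₀ → M) (h : k₀ ∣ K) (ξ : ZMod K → E) : ZMod K → M := fun i =>
  ich E (x (cst h i)) (ξ i + bp E (x (cst h i)))

/-- The cost between the vertices `i` and `i + 1` in centred coordinates. -/
def ec (E : Type*) [NormedAddCommGroup E] [NormedSpace ℝ E] {M : Type*} [MetricSpace M]
    [ChartedSpace E M] {k₀ : ℕ} (x : ZMod k₀ → M) (i : ZMod k₀) (w : E × E) : ℝ :=
  cc E (x i) (x (i + 1)) (w + (bp E (x i), bp E (x (i + 1))))

theorem pol_zero {k₀ K : ℕ} (x : ZMod k₀ → M) (h : k₀ ∣ K) :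
    pol (E := E) x h 0 = fun i => x (cst h i) := by
  funext i
  simp only [pol, Pi.zero_apply, zero_add, ich_bp]

/-- The cyclic sum is the energy. -/
theorem cyc_ec {k₀ K : ℕ} (x : ZMod k₀ → M) (h : k₀ ∣ K) [NeZero K] (ξ : ZMod K → E) :
    cyc h (ec E x) ξ = ∑ i, cost (pol x h ξ i) (pol x h ξ (i + 1)) := by
  unfold cyc ec cc pol
  refine Finset.sum_congr rfl fun i _ => ?_
  rw [map_add, map_one]
  rfl

/-- The polygon of the repeated coordinates is the repeated polygon. -/
theorem pol_rep {k₀ K' K : ℕ} (x : ZMod k₀ → M) (h : k₀ ∣ K') (h' : K' ∣ K) (ξ : ZMod K' → E)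
    (i : ZMod K) : pol x (h.trans h') (fun i => ξ (cst h' i)) i = pol x h ξ (cst h' i) := by
  unfold pol
  simp only [cst_cst]

/-- The space of polygons is a manifold. -/
def polHomeo {k₀ K : ℕ} (x : ZMod k₀ → M) (h : k₀ ∣ K) [NeZero K] :
    OpenPartialHomeomorph (ZMod K → E) (ZMod K → M) :=
  ((Homeomorph.addRight (fun i : ZMod K => bp E (x (cst h i)))).toOpenPartialHomeomorph).trans
    (OpenPartialHomeomorph.pi fun i => (chartAt E (x (cst h i))).symm)

theorem polHomeo_apply {k₀ K : ℕ} (x : ZMod k₀ → M) (h : k₀ ∣ K) [NeZero K] (ξ : ZMod K → E) :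
    polHomeo x h ξ = pol x h ξ := by
  funext i
  rfl

theorem zero_mem_source {k₀ K : ℕ} (x : ZMod k₀ → M) (h : k₀ ∣ K) [NeZero K] :
    (0 : ZMod K → E) ∈ (polHomeo x h).source := by
  refine ⟨mem_univ _, ?_⟩
  intro i _
  show (0 : E) + bp E (x (cst h i)) ∈ (chartAt E (x (cst h i))).target
  rw [zero_add]
  have := bp_mem (E := E) (x (cst h i))
  simpa using this

theorem hs_add_right {V : Type*} [NormedAddCommGroup V] [NormedSpace ℝ V] (f : V → ℝ) (c x : V) :
    hs (fun w => f (w + c)) x = hs f (x + c) := by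
  unfold hs
  have : (fderiv ℝ fun w => f (w + c)) = fun w => fderiv ℝ f (w + c) := by
    funext w
    exact fderiv_comp_add_right c
  rw [this]
  exact fderiv_comp_add_right c

variable [RiemannianBundle (fun x : M => TangentSpace 𝓘(ℝ, E) x)]
  [IsManifold 𝓘(ℝ, E) ∞ M]
  [IsContMDiffRiemannianBundle 𝓘(ℝ, E) ∞ E (fun x : M => TangentSpace 𝓘(ℝ, E) x)]
  {ε : ℝ} {e₀ : ∀ x : M, TangentSpace 𝓘(ℝ, E) x → M} {L : ∀ x : M, M → TangentSpace 𝓘(ℝ, E) x}

theorem mem_ccDom {p q : M} (hpq : dist p q < ε) : (bp E p, bp E q) ∈ ccDom E ε p q := by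
  refine ⟨bp_mem p, bp_mem q, ?_⟩
  rw [ich_bp, ich_bp]
  exact hpq

theorem contDiffAt_ec (h : NearExp ε e₀ L) {k₀ : ℕ} {x : ZMod k₀ → M} {i : ZMod k₀}
    (hx : dist (x i) (x (i + 1)) < ε) : ∀ᶠ w in 𝓝 (0 : E × E), ContDiffAt ℝ ∞ (ec E x i) w := by
  have h1 : ∀ᶠ w in 𝓝 (0 : E × E),
      w + (bp E (x i), bp E (x (i + 1))) ∈ ccDom E ε (x i) (x (i + 1)) := by
    have hc : ContinuousAt (fun w : E × E => w + (bp E (x i), bp E (x (i + 1)))) 0 := by fun_prop
    refine hc.eventually (ccDom_mem_nhds ?_)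
    show (0 : E × E) + _ ∈ _
    rw [zero_add]
    exact mem_ccDom hx
  filter_upwards [h1] with w hw
  exact ContDiffAt.comp (g := cc E (x i) (x (i + 1)))
    (f := fun w : E × E => w + (bp E (x i), bp E (x (i + 1)))) w (contDiffAt_cc h hw) (by fun_prop)

/-- **GM5.** Short `k₀`-gons `x`: the energy is smooth in the charts at all repetitions, and there
is `D` such that, on the space of `k₀ m`-gons, its Hessian at the repetition of `x` is nondegenerate
on the complement of the `k₀ (gcd m D)`-periodic directions. -/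
theorem exists_nondeg_polygon (h : NearExp ε e₀ L) {k₀ : ℕ} {x : ZMod k₀ → M}
    (hx : ∀ i, dist (x i) (x (i + 1)) < ε) :
    ∃ D : ℕ, 0 < D ∧ ∀ (m K : ℕ) (h : k₀ ∣ K) (_ : NeZero K), 0 < m → K = k₀ * m →
      ∀ ζ : ZMod K → E,
        ∑ j ∈ Finset.range (m / m.gcd D), ((sh ((k₀ * m.gcd D : ℕ) : ZMod K)) ^ j) ζ = 0 →
        (∀ ζ' : ZMod K → E,
          ∑ j ∈ Finset.range (m / m.gcd D), ((sh ((k₀ * m.gcd D : ℕ) : ZMod K)) ^ j) ζ' = 0 →
            hs (cyc h (ec E x)) 0 ζ ζ' = 0) → ζ = 0 := by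
  refine exists_nondeg (fun i => (contDiffAt_ec h (hx i)).self_of_nhds.of_le ?_) ?_ ?_
  · exact WithTop.coe_le_coe.2 le_top
  · intro i η hη
    refine twist_right h (mem_ccDom (hx i)) fun ξ => ?_
    have := hη ξ
    unfold ec at this
    rwa [hs_add_right, zero_add] at this
  · intro i ξ hξ
    refine twist_left h (mem_ccDom (hx i)) fun η => ?_
    have := hξ η
    unfold ec at this
    rw [hs_add_right, zero_add] at this
    rw [symm_cc h (mem_ccDom (hx i))]
    exact this

theorem contDiffAt_energy (h : NearExp ε e₀ L) {k₀ K : ℕ} {x : ZMod k₀ → M} (hK : k₀ ∣ K)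
    [NeZero K] (hx : ∀ i, dist (x i) (x (i + 1)) < ε) :
    ∀ᶠ ξ in 𝓝 (0 : ZMod K → E), ContDiffAt ℝ ∞ (cyc hK (ec E x)) ξ := by
  have h1 : ∀ i : ZMod K, ∀ᶠ ξ in 𝓝 (0 : ZMod K → E),
      ContDiffAt ℝ ∞ (ec E x (cst hK i)) (pr (E := E) i ξ) := by
    intro i
    have hc : ContinuousAt (fun ξ : ZMod K → E => pr (E := E) i ξ) 0 :=
      (pr (E := E) i).continuous.continuousAt
    refine hc.eventually ?_
    show ∀ᶠ y in 𝓝 (pr (E := E) i 0), _
    rw [map_zero]
    exact contDiffAt_ec h (hx _)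
  filter_upwards [Filter.eventually_all.2 h1] with ξ hξ
  exact contDiffAt_cyc hK hξ

end

end Vale.Agent.P216.H844
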