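import Vale.Agent.P216.H844.Chart

/-!
P216, block GM5, interface: the splitting of the space of `q K'`-gons (in coordinates) into the
repetitions of `K'`-gons and the complement `∑ shift^j = 0`.
-/

set_option maxSynthPendingDepth 3
set_option linter.unusedSectionVars false

open Set Filter Topology
open scoped ContDiff

namespace Vale.Agent.P216.H844

noncomputable section

section Lin

variable {E : Type*} [NormedAddCommGroup E] [NormedSpace ℝ E]

/-- Repetition. -/
def repL {K' K : ℕ} (h' : K' ∣ K) : (ZMod K' → E) →L[ℝ] (ZMod K → E) :=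
  ContinuousLinearMap.pi fun i => ContinuousLinearMap.proj (cst h' i)

theorem repL_apply {K' K : ℕ} (h' : K' ∣ K) (y : ZMod K' → E) (i : ZMod K) :
    repL h' y i = y (cst h' i) := rfl

/-- The sum over the orbit of the shift by `K'`. -/
def orb (E : Type*) [NormedAddCommGroup E] [NormedSpace ℝ E] (K' K q : ℕ) :
    (ZMod K → E) →L[ℝ] (ZMod K → E) :=
  ∑ j ∈ Finset.range q, (sh ((K' : ℕ) : ZMod K)) ^ j

theorem orb_apply (K' K q : ℕ) (ξ : ZMod K → E) :
    orb E K' K q ξ = ∑ j ∈ Finset.range q, ((sh ((K' : ℕ) : ZMod K)) ^ j) ξ := by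
  unfold orb
  simp

theorem orb_apply' (K' K q : ℕ) (ξ : ZMod K → E) (i : ZMod K) :
    orb E K' K q ξ i = ∑ j ∈ Finset.range q, ξ (i + (j : ZMod K) * (K' : ZMod K)) := by
  rw [orb_apply, Finset.sum_apply]
  refine Finset.sum_congr rfl fun j _ => ?_
  rw [sh_pow, sh_apply]

/-- The complement of the repetitions. -/
def Zc (E : Type*) [NormedAddCommGroup E] [NormedSpace ℝ E] (K' K q : ℕ) :
    Submodule ℝ (ZMod K → E) := LinearMap.ker (orb E K' K q).toLinearMap

theorem mem_Zc {K' K q : ℕ} {ζ : ZMod K → E} : ζ ∈ Zc E K' K q ↔ orb E K' K q ζ = 0 := Iff.rfl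

variable {K' K q : ℕ}

/-- Restriction of a periodic sequence. -/
def restr (K' K : ℕ) : (ZMod K → E) →ₗ[ℝ] (ZMod K' → E) where
  toFun ξ c := ξ ((c.val : ℕ) : ZMod K)
  map_add' _ _ := rfl
  map_smul' _ _ := rfl

theorem restr_rep [NeZero K'] (h' : K' ∣ K) (y : ZMod K' → E) :
    restr K' K (repL h' y) = y := by
  funext c
  show y (cst h' ((c.val : ℕ) : ZMod K)) = y c
  rw [cst_natCast, ZMod.natCast_zmod_val]

theorem shift_mul {ξ : ZMod K → E} (hξ : ∀ i, ξ (i + (K' : ZMod K)) = ξ i) (n : ℕ) (i : ZMod K) :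
    ξ (i + (n : ZMod K) * (K' : ZMod K)) = ξ i := by
  induction n with
  | zero => simp
  | succ n ih =>
    have : i + ((n + 1 : ℕ) : ZMod K) * (K' : ZMod K) =
        i + (n : ZMod K) * (K' : ZMod K) + (K' : ZMod K) := by
      push_cast
      ring
    rw [this, hξ, ih]

theorem rep_restr [NeZero K] (h' : K' ∣ K) {ξ : ZMod K → E}
    (hξ : ∀ i, ξ (i + (K' : ZMod K)) = ξ i) : repL h' (restr K' K ξ) = ξ := by
  funext i
  show ξ (((cst h' i).val : ℕ) : ZMod K) = ξ i
  have h1 : (cst h' i).val = i.val % K' := by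
    conv_lhs => rw [← ZMod.natCast_zmod_val i]
    rw [cst_natCast, ZMod.val_natCast]
  rw [h1, ← shift_mul hξ (i.val / K')]
  congr 1
  conv_rhs => rw [← ZMod.natCast_zmod_val i, ← Nat.mod_add_div i.val K']
  push_cast
  ring

theorem orb_fixed (hK : K = q * K') (ξ : ZMod K → E) (i : ZMod K) :
    orb E K' K q ξ (i + (K' : ZMod K)) = orb E K' K q ξ i := by
  rw [orb_apply', orb_apply']
  have h1 := Finset.sum_range_succ (fun j : ℕ => ξ (i + (j : ZMod K) * (K' : ZMod K))) q
  have h2 := Finset.sum_range_succ' (fun j : ℕ => ξ (i + (j : ZMod K) * (K' : ZMod K))) q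
  have h3 : ((q : ℕ) : ZMod K) * (K' : ZMod K) = 0 := by
    rw [← Nat.cast_mul, ← hK, ZMod.natCast_self]
  rw [h1, h3] at h2
  simp only [Nat.cast_zero, zero_mul] at h2
  have h4 : ∀ j : ℕ, ξ (i + (K' : ZMod K) + (j : ZMod K) * (K' : ZMod K)) =
      ξ (i + ((j + 1 : ℕ) : ZMod K) * (K' : ZMod K)) := by
    intro j
    congr 1
    push_cast
    ring
  rw [Finset.sum_congr rfl fun j _ => h4 j]
  exact (add_right_cancel h2).symm

theorem orb_rep (h' : K' ∣ K) (y : ZMod K' → E) :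
    orb E K' K q (repL h' y) = (q : ℝ) • repL h' y := by
  funext i
  rw [orb_apply']
  have h1 : ∀ j ∈ Finset.range q, repL h' y (i + (j : ZMod K) * (K' : ZMod K)) = repL h' y i := by
    intro j _
    rw [repL_apply, repL_apply, map_add, map_mul, cst_natCast h' K', ZMod.natCast_self, mul_zero,
      add_zero]
  rw [Finset.sum_congr rfl h1, Finset.sum_const, Finset.card_range, ← Nat.cast_smul_eq_nsmul ℝ]
  rfl

/-- The splitting. -/
def spl (E : Type*) [NormedAddCommGroup E] [NormedSpace ℝ E] [FiniteDimensional ℝ E]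
    {K' K q : ℕ} [NeZero K'] [NeZero K] (hq : 0 < q) (h' : K' ∣ K) (hK : K = q * K') :
    ((ZMod K' → E) × Zc E K' K q) ≃L[ℝ] (ZMod K → E) :=
  LinearEquiv.toContinuousLinearEquiv
    { toFun := fun p => repL h' p.1 + p.2
      map_add' := fun p p' => by
        simp only [Prod.fst_add, Prod.snd_add, map_add, Submodule.coe_add]
        abel
      map_smul' := fun c p => by
        simp only [Prod.smul_fst, Prod.smul_snd, map_smul, Submodule.coe_smul, smul_add,
          RingHom.id_apply]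
      invFun := fun ξ => ((q : ℝ)⁻¹ • restr K' K (orb E K' K q ξ),
        ⟨ξ - (q : ℝ)⁻¹ • orb E K' K q ξ, by
          have hq' : (q : ℝ) ≠ 0 := Nat.cast_ne_zero.2 hq.ne'
          rw [mem_Zc, map_sub, map_smul]
          have h1 : repL h' (restr K' K (orb E K' K q ξ)) = orb E K' K q ξ :=
            rep_restr h' (orb_fixed hK ξ)
          have h2 := orb_rep (q := q) h' (restr K' K (orb E K' K q ξ))
          rw [h1] at h2
          rw [h2, smul_smul, inv_mul_cancel₀ hq', one_smul, sub_self]⟩)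
      left_inv := by
        rintro ⟨y, ζ⟩
        have hq' : (q : ℝ) ≠ 0 := Nat.cast_ne_zero.2 hq.ne'
        have h1 : orb E K' K q (repL h' y + ζ) = (q : ℝ) • repL h' y := by
          rw [map_add, mem_Zc.1 ζ.2, add_zero, orb_rep]
        refine Prod.ext ?_ (Subtype.ext ?_)
        · show (q : ℝ)⁻¹ • restr K' K (orb E K' K q (repL h' y + ζ)) = y
          rw [h1, map_smul, restr_rep, smul_smul, inv_mul_cancel₀ hq', one_smul]
        · show repL h' y + (ζ : ZMod K → E) - (q : ℝ)⁻¹ • orb E K' K q (repL h' y + ζ) = ζ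
          rw [h1, smul_smul, inv_mul_cancel₀ hq', one_smul, add_sub_cancel_left]
      right_inv := fun ξ => by
        show repL h' ((q : ℝ)⁻¹ • restr K' K (orb E K' K q ξ)) +
          (ξ - (q : ℝ)⁻¹ • orb E K' K q ξ) = ξ
        rw [map_smul, rep_restr h' (orb_fixed hK ξ), add_sub_cancel] }

theorem spl_apply [FiniteDimensional ℝ E] [NeZero K'] [NeZero K] (hq : 0 < q) (h' : K' ∣ K)
    (hK : K = q * K') (p : (ZMod K' → E) × Zc E K' K q) :
    spl E hq h' hK p = repL h' p.1 + p.2 := rfl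

theorem sum_rep [NeZero K'] [NeZero K] (h' : K' ∣ K) (hK : K = q * K') (g : ZMod K' → ℝ) :
    ∑ i : ZMod K, g (cst h' i) = q * ∑ j : ZMod K', g j := by
  have h0 : ∀ (n : ℕ) [NeZero n] (f : ZMod n → ℝ), ∑ i, f i = ∑ j ∈ Finset.range n, f j := by
    intro n hn f
    refine (Finset.sum_nbij' (fun j : ℕ => (j : ZMod n)) (fun i : ZMod n => i.val) ?_ ?_ ?_ ?_ ?_).symm
    · intro _ _; exact Finset.mem_univ _
    · intro i _; exact Finset.mem_range.2 (ZMod.val_lt i)
    · intro j hj; exact ZMod.val_natCast_of_lt (Finset.mem_range.1 hj)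
    · intro i _; exact ZMod.natCast_zmod_val i
    · intro _ _; rfl
  rw [h0, h0]
  simp only [cst_natCast]
  subst hK
  have h1 : ∀ n : ℕ, ∑ j ∈ Finset.range (n * K'), g (j : ZMod K') =
      n * ∑ j ∈ Finset.range K', g (j : ZMod K') := by
    intro n
    induction n with
    | zero => simp
    | succ n ih =>
      rw [Nat.succ_mul, Finset.sum_range_add, ih]
      have : ∀ j ∈ Finset.range K', g ((n * K' + j : ℕ) : ZMod K') = g (j : ZMod K') := by
        intro j _
        push_cast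
        rw [ZMod.natCast_self, mul_zero, zero_add]
      rw [Finset.sum_congr rfl this]
      push_cast
      ring
  exact h1 q

theorem cyc_rep {k₀ : ℕ} [NeZero K'] [NeZero K] (h : k₀ ∣ K') (h' : K' ∣ K) (hK : K = q * K')
    (e : ZMod k₀ → E × E → ℝ) (y : ZMod K' → E) :
    cyc (h.trans h') e (repL h' y) = q * cyc h e y := by
  unfold cyc
  rw [← sum_rep h' hK]
  refine Finset.sum_congr rfl fun i _ => ?_
  rw [repL_apply, repL_apply, cst_cst, map_add, map_one]

/-- The derivative of an invariant function at a repetition vanishes on the complement. -/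
theorem fderiv_rep {k₀ : ℕ} [NeZero K'] [NeZero K] (hq : 0 < q) (h : k₀ ∣ K') (h' : K' ∣ K)
    {e : ZMod k₀ → E × E → ℝ} {y : ZMod K' → E}
    (hd : DifferentiableAt ℝ (cyc (h.trans h') e) (repL h' y)) {ζ : ZMod K → E}
    (hζ : ζ ∈ Zc E K' K q) : fderiv ℝ (cyc (h.trans h') e) (repL h' y) ζ = 0 := by
  set R : (ZMod K → E) →L[ℝ] (ZMod K → E) := sh ((K' : ℕ) : ZMod K) with hR
  have hfix : R (repL h' y) = repL h' y := by
    funext i
    rw [hR, sh_apply, repL_apply, repL_apply, map_add, cst_natCast, ZMod.natCast_self, add_zero]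
  have hinv : (fun ξ => cyc (h.trans h') e (R ξ)) = cyc (h.trans h') e := by
    funext ξ
    refine cyc_sh _ _ ?_ ξ
    rw [cst_natCast]
    exact (ZMod.natCast_eq_zero_iff _ _).2 h
  have h1 : ∀ v, fderiv ℝ (cyc (h.trans h') e) (repL h' y) (R v) =
      fderiv ℝ (cyc (h.trans h') e) (repL h' y) v := by
    intro v
    have h2 : HasFDerivAt (fun ξ => cyc (h.trans h') e (R ξ))
        ((fderiv ℝ (cyc (h.trans h') e) (repL h' y)).comp R) (repL h' y) := by
      refine HasFDerivAt.comp (g := cyc (h.trans h') e) (repL h' y) ?_ R.hasFDerivAt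
      rw [hfix]
      exact hd.hasFDerivAt
    rw [hinv] at h2
    exact (DFunLike.congr_fun h2.fderiv v).symm
  have h2 : ∀ (j : ℕ) v, fderiv ℝ (cyc (h.trans h') e) (repL h' y) ((R ^ j) v) =
      fderiv ℝ (cyc (h.trans h') e) (repL h' y) v := by
    intro j v
    induction j with
    | zero => rfl
    | succ j ih =>
      rw [pow_succ', ← ih]
      exact h1 _
  have h3 := mem_Zc.1 hζ
  rw [orb_apply] at h3
  have h4 := congrArg (fderiv ℝ (cyc (h.trans h') e) (repL h' y)) h3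
  rw [map_sum, map_zero, Finset.sum_congr rfl fun j _ => h2 j ζ, Finset.sum_const,
    Finset.card_range, nsmul_eq_mul] at h4
  exact (mul_eq_zero.1 h4).resolve_left (Nat.cast_ne_zero.2 hq.ne')

end Lin

end

noncomputable section Geom

open Bundle Manifold
open scoped Manifold
open Vale.Agent.P234 Vale.Agent.P216.Geo

variable {E : Type*} [NormedAddCommGroup E] [NormedSpace ℝ E] [FiniteDimensional ℝ E]
  {M : Type*} [MetricSpace M] [ChartedSpace E M]
  {K' K q : ℕ}

/-- The energy in the coordinates `(y, z)`. -/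
def FF {k₀ : ℕ} [NeZero K'] [NeZero K] (x : ZMod k₀ → M) (hq : 0 < q) (h₀ : k₀ ∣ K')
    (h' : K' ∣ K) (hK : K = q * K') (p : (ZMod K' → E) × Zc E K' K q) : ℝ :=
  cyc (h₀.trans h') (ec E x) (spl E hq h' hK p)

theorem FF_eq {k₀ : ℕ} [NeZero K'] [NeZero K] (x : ZMod k₀ → M) (hq : 0 < q) (h₀ : k₀ ∣ K')
    (h' : K' ∣ K) (hK : K = q * K') (p : (ZMod K' → E) × Zc E K' K q) :
    FF x hq h₀ h' hK p = ∑ i, cost (pol x (h₀.trans h') (spl E hq h' hK p) i)
      (pol x (h₀.trans h') (spl E hq h' hK p) (i + 1)) :=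
  cyc_ec x (h₀.trans h') _

theorem pol_spl_zero {k₀ : ℕ} [NeZero K'] [NeZero K] (x : ZMod k₀ → M) (hq : 0 < q) (h₀ : k₀ ∣ K')
    (h' : K' ∣ K) (hK : K = q * K') (y : ZMod K' → E) (i : ZMod K) :
    pol x (h₀.trans h') (spl E hq h' hK (y, 0)) i = pol x h₀ y (cst h' i) := by
  rw [← pol_rep x h₀ h' y i]
  congr 1
  rw [spl_apply]
  simp only [Submodule.coe_zero, add_zero]
  rfl

variable [RiemannianBundle (fun x : M => TangentSpace 𝓘(ℝ, E) x)]
  [IsManifold 𝓘(ℝ, E) ∞ M]
  [IsContMDiffRiemannianBundle 𝓘(ℝ, E) ∞ E (fun x : M => TangentSpace 𝓘(ℝ, E) x)]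
  {ε : ℝ} {e₀ : ∀ x : M, TangentSpace 𝓘(ℝ, E) x → M} {L : ∀ x : M, M → TangentSpace 𝓘(ℝ, E) x}

/-- **GM5, final form.** -/
theorem gm5 (h : NearExp ε e₀ L) {k₀ : ℕ} {x : ZMod k₀ → M}
    (hx : ∀ i, dist (x i) (x (i + 1)) < ε) :
    ∃ D : ℕ, 0 < D ∧ ∀ (m K' K q : ℕ) (_ : NeZero K') (_ : NeZero K) (hq : 0 < q) (h₀ : k₀ ∣ K')
      (h' : K' ∣ K) (hK : K = q * K'), 0 < m → K' = k₀ * m.gcd D → K = k₀ * m →
      (∀ᶠ p in 𝓝 (0 : (ZMod K' → E) × Zc E K' K q), ContDiffAt ℝ ∞ (FF x hq h₀ h' hK) p) ∧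
      (∀ᶠ y in 𝓝 (0 : ZMod K' → E), ∀ z : Zc E K' K q,
        fderiv ℝ (FF x hq h₀ h' hK) (y, 0) (0, z) = 0) ∧
      (∀ z : Zc E K' K q, (∀ w : Zc E K' K q,
        fderiv ℝ (fderiv ℝ (FF x hq h₀ h' hK)) 0 (0, z) (0, w) = 0) → z = 0) ∧
      ∀ y : ZMod K' → E, FF x hq h₀ h' hK (y, 0) = q * cyc h₀ (ec E x) y := by
  obtain ⟨D, hD, H⟩ := exists_nondeg_polygon h hx
  refine ⟨D, hD, ?_⟩
  intro m K' K q _ _ hq h₀ h' hK hm hK' hKm
  have hsm := contDiffAt_energy (E := E) h (h₀.trans h') hx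
  have hd0 : 0 < m.gcd D := Nat.gcd_pos_of_pos_left _ hm
  have hk0 : 0 < k₀ := by
    rcases Nat.eq_zero_or_pos k₀ with h0 | h0
    · rw [h0, zero_mul] at hKm
      exact absurd hKm (NeZero.ne K)
    · exact h0
  have hqm : m / m.gcd D = q := by
    have h1 : k₀ * m = q * (k₀ * m.gcd D) := by rw [← hKm, hK, hK']
    have h2 : m = q * m.gcd D := by
      refine Nat.eq_of_mul_eq_mul_left hk0 ?_
      rw [h1]
      ring
    exact Nat.div_eq_of_eq_mul_left hd0 h2
  have hc : ContinuousAt (fun p : (ZMod K' → E) × Zc E K' K q => spl E hq h' hK p) 0 :=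
    (spl E hq h' hK).continuous.continuousAt
  have hsmF : ∀ᶠ p in 𝓝 (0 : (ZMod K' → E) × Zc E K' K q),
      ContDiffAt ℝ ∞ (cyc (h₀.trans h') (ec E x)) (spl E hq h' hK p) := by
    refine hc.eventually ?_
    show ∀ᶠ p in 𝓝 (spl E hq h' hK 0), _
    rw [map_zero]
    exact hsm
  refine ⟨?_, ?_, ?_, ?_⟩
  · filter_upwards [hsmF] with p hp
    exact ContDiffAt.comp (g := cyc (h₀.trans h') (ec E x)) (f := fun p => spl E hq h' hK p) p hp
      (spl E hq h' hK).contDiff.contDiffAt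
  · have h1 : ContinuousAt (fun y : ZMod K' → E => (y, (0 : Zc E K' K q))) 0 := by fun_prop
    filter_upwards [h1.eventually hsmF] with y hy z
    have h2 : spl E hq h' hK (y, 0) = repL h' y := by
      rw [spl_apply]
      simp
    have hd : DifferentiableAt ℝ (cyc (h₀.trans h') (ec E x)) (repL h' y) := by
      rw [← h2]
      exact hy.differentiableAt (by simp)
    have h3 : HasFDerivAt (FF x hq h₀ h' hK)
        ((fderiv ℝ (cyc (h₀.trans h') (ec E x)) (repL h' y)).comp
          (spl E hq h' hK : _ →L[ℝ] (ZMod K → E))) (y, 0) := by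
      refine HasFDerivAt.comp (g := cyc (h₀.trans h') (ec E x)) (y, 0) ?_
        (spl E hq h' hK).hasFDerivAt
      show HasFDerivAt _ _ (spl E hq h' hK (y, 0))
      rw [h2]
      exact hd.hasFDerivAt
    rw [h3.fderiv]
    have h4 : spl E hq h' hK (0, z) = (z : ZMod K → E) := by
      rw [spl_apply]
      simp
    show fderiv ℝ (cyc (h₀.trans h') (ec E x)) (repL h' y) (spl E hq h' hK (0, z)) = 0
    rw [h4]
    exact fderiv_rep hq h₀ h' hd z.2
  · intro z hz
    have h2 : ∀ a b, fderiv ℝ (fderiv ℝ (FF x hq h₀ h' hK)) 0 a b =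
        hs (cyc (h₀.trans h') (ec E x)) 0 (spl E hq h' hK a) (spl E hq h' hK b) := by
      intro a b
      have h3 := hs_comp (f := cyc (h₀.trans h') (ec E x))
        (spl E hq h' hK : _ →L[ℝ] (ZMod K → E)) (x := 0) (by
          rw [map_zero]
          exact hsm.self_of_nhds.of_le (WithTop.coe_le_coe.2 le_top)) a b
      rw [map_zero] at h3
      exact h3
    have h4 : ∀ w : Zc E K' K q, spl E hq h' hK (0, w) = (w : ZMod K → E) := by
      intro w
      rw [spl_apply]
      simp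
    refine Subtype.ext ?_
    refine H m K (h₀.trans h') inferInstance hm hKm z ?_ ?_
    · rw [hqm, ← hK', ← orb_apply]
      exact mem_Zc.1 z.2
    · intro ζ' hζ'
      rw [hqm, ← hK', ← orb_apply] at hζ'
      have h5 := hz ⟨ζ', mem_Zc.2 hζ'⟩
      rw [h2, h4, h4] at h5
      exact h5
  · intro y
    have h2 : spl E hq h' hK (y, 0) = repL h' y := by
      rw [spl_apply]
      simp
    unfold FF
    rw [h2]
    exact cyc_rep h₀ h' hK _ y

end Geom

end Vale.Agent.P216.H844
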