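import Vale.Agent.P216.H844.Lev
import Vale.Agent.P216.H844.Split
import Vale.Agent.P216.LS.Poly

/-!
P216, block F4: the local rank at the repetition `m` of a closed geodesic is a shift of the local
rank at the repetition `gcd m D₀`.
-/

set_option maxSynthPendingDepth 3
set_option linter.unusedSectionVars false

open Set Filter Topology

namespace Vale.Agent.P216.H844

open Vale.Agent.P216.GM

/-- The elimination of nondegenerate variables (block GM2). -/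
def GM2Stmt : Prop := ∀ (Y Z : Type) [NormedAddCommGroup Y] [NormedSpace ℝ Y]
  [FiniteDimensional ℝ Y] [NormedAddCommGroup Z] [NormedSpace ℝ Z] [FiniteDimensional ℝ Z]
  (F : Y × Z → ℝ), (∀ᶠ p in 𝓝 0, ContDiffAt ℝ 2 F p) →
  (∀ᶠ y in 𝓝 0, ∀ z, fderiv ℝ F (y, 0) (0, z) = 0) →
  (∀ z, (∀ w, fderiv ℝ (fderiv ℝ F) 0 (0, z) (0, w) = 0) → z = 0) →
  ∀ D : ℕ → ℕ, LR (fun s => {y | F (y, 0) ≤ s}) (F 0) {0} D →
    ∃ lam : ℕ, LR (fun s => {p | F p ≤ s}) (F 0) {0} (fun q => if q < lam then 0 else D (q - lam))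

section Rep

variable {M : Type} [MetricSpace M]

/-- The repetition of a polygon. -/
def rep {k₀ : ℕ} (K : ℕ) (h : k₀ ∣ K) (x : ZMod k₀ → M) : ZMod K → M := fun i => x (cst h i)

theorem cst_self {k : ℕ} (i : ZMod k) : cst (dvd_refl k) i = i := by
  obtain ⟨n, rfl⟩ := ZMod.intCast_surjective i
  exact cst_intCast _ _

theorem rep_zero_E {k₀ K d : ℕ} [NeZero k₀] [NeZero K] (h : k₀ ∣ K) (hK : K = d * k₀)
    (x : ZMod k₀ → M) : LS.E (rep K h x) = d ^ 2 * LS.E x := by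
  unfold LS.E rep
  have h1 := sum_rep (K' := k₀) (K := K) (q := d) h hK (fun i => dist (x i) (x (i + 1)) ^ 2)
  have h2 : ∀ i : ZMod K, cst h (i + 1) = cst h i + 1 := fun i => by rw [map_add, map_one]
  simp only [h2]
  rw [h1, hK]
  push_cast
  ring

end Rep

noncomputable section Geom

open Bundle Manifold
open scoped Manifold ContDiff
open Vale.Agent.P234 Vale.Agent.P216.Geo

variable {E : Type} [NormedAddCommGroup E] [NormedSpace ℝ E] [FiniteDimensional ℝ E]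
  {M : Type} [MetricSpace M] [CompactSpace M] [ChartedSpace E M]

theorem E_pol {k₀ K : ℕ} [NeZero K] (x : ZMod k₀ → M) (h : k₀ ∣ K) (ξ : ZMod K → E) :
    LS.E (pol x h ξ) = 2 * K * cyc h (ec E x) ξ := by
  rw [cyc_ec, LS.E]
  have : ∀ i, cost (pol x h ξ i) (pol x h ξ (i + 1)) =
      (1 / 2) * dist (pol x h ξ i) (pol x h ξ (i + 1)) ^ 2 := by
    intro i
    unfold cost
    ring
  simp only [this]
  rw [← Finset.mul_sum]
  ring

theorem pol_zero' {k₀ K : ℕ} (x : ZMod k₀ → M) (h : k₀ ∣ K) :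
    pol (E := E) x h 0 = rep K h x := pol_zero x h

variable [RiemannianBundle (fun x : M => TangentSpace 𝓘(ℝ, E) x)]
  [IsManifold 𝓘(ℝ, E) ∞ M]
  [IsContMDiffRiemannianBundle 𝓘(ℝ, E) ∞ E (fun x : M => TangentSpace 𝓘(ℝ, E) x)]
  {ε : ℝ} {e₀ : ∀ x : M, TangentSpace 𝓘(ℝ, E) x → M} {L : ∀ x : M, M → TangentSpace 𝓘(ℝ, E) x}

/-- **F4** for the energy and arbitrary filtrations `X s = {E ≤ s ^ 2}`, `s > 0`. -/
theorem f4 (hGM2 : GM2Stmt) (h : NearExp ε e₀ L) {k₀ : ℕ} [NeZero k₀] {x : ZMod k₀ → M}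
    (hx : ∀ i, dist (x i) (x (i + 1)) < ε) {ℓ : ℝ} (hℓ : 0 < ℓ) (hE : LS.E x = ℓ ^ 2) :
    ∃ D₀ : ℕ, 0 < D₀ ∧ ∀ (m K' K : ℕ) (_ : NeZero K') (_ : NeZero K) (h₀ : k₀ ∣ K') (h₁ : k₀ ∣ K)
      (X' : ℝ → Set (ZMod K' → M)) (X : ℝ → Set (ZMod K → M)) (D : ℕ → ℕ), 0 < m →
      K' = k₀ * m.gcd D₀ → K = k₀ * m → (∀ s, 0 < s → X' s = LS.Pl M K' s) →
      (∀ s, 0 < s → X s = LS.Pl M K s) →
      LR X' ((m.gcd D₀ : ℕ) * ℓ) {rep K' h₀ x} D →
      ∃ lam : ℕ, LR X (m * ℓ) {rep K h₁ x} (fun q => if q < lam then 0 else D (q - lam)) := by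
  obtain ⟨D₀, hD₀, H⟩ := gm5 h hx
  refine ⟨D₀, hD₀, ?_⟩
  intro m K' K _ _ h₀ h₁ X' X D hm hK' hK hX' hX hLR
  set d : ℕ := m.gcd D₀ with hd
  have hd0 : 0 < d := Nat.gcd_pos_of_pos_left _ hm
  obtain ⟨q, hq⟩ : d ∣ m := Nat.gcd_dvd_left _ _
  have hq0 : 0 < q := by
    rcases Nat.eq_zero_or_pos q with h2 | h2
    · rw [h2, mul_zero] at hq
      omega
    · exact h2
  have hKq : K = q * K' := by
    rw [hK, hK', hq]
    ring
  have h' : K' ∣ K := ⟨q, by rw [hKq]; ring⟩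
  obtain ⟨g1, g2, g3, g4⟩ := H m K' K q ‹_› ‹_› hq0 h₀ h' hKq hm hK' hK
  have hK'0 : (0 : ℝ) < K' := LS.cast_pos_K
  have hK0 : (0 : ℝ) < K := LS.cast_pos_K
  have hqr : (0 : ℝ) < q := by exact_mod_cast hq0
  have hdr : (0 : ℝ) < d := by exact_mod_cast hd0
  have hmr : (0 : ℝ) < m := by exact_mod_cast hm
  have hE' : LS.E (rep K' h₀ x) = (d * ℓ) ^ 2 := by
    rw [rep_zero_E (d := d) h₀ (by rw [hK']; ring), hE]
    ring
  -- from polygons to coordinates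
  have s1 : LR (SL (LS.E : (ZMod K' → M) → ℝ)) ((d * ℓ) ^ 2) {rep K' h₀ x} D :=
    lr_of_sq (by positivity) hX' hLR
  have s2 : LR (SL (fun y : ZMod K' → E => 2 * K' * cyc h₀ (ec E x) y)) ((d * ℓ) ^ 2) {0} D := by
    refine lr_homeo (polHomeo (E := E) x h₀) (zero_mem_source x h₀) (F' := LS.E) ?_ ?_
    · intro y _
      rw [polHomeo_apply, E_pol]
    · rw [polHomeo_apply, pol_zero']
      exact s1
  have hF0 : FF (E := E) x hq0 h₀ h' hKq 0 = q / (2 * K') * (d * ℓ) ^ 2 := by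
    have := g4 0
    rw [← Prod.zero_eq_mk] at this
    rw [this, ← hE', ← pol_zero' (E := E), E_pol]
    field_simp
  have s3 : LR (fun s => {y : ZMod K' → E | FF (E := E) x hq0 h₀ h' hKq (y, 0) ≤ s})
      (FF (E := E) x hq0 h₀ h' hKq 0) {0} D := by
    refine lr_scale (c := q / (2 * K')) (by positivity) s2 ?_ hF0
    intro y
    rw [g4]
    field_simp
  obtain ⟨lam, s4⟩ := hGM2 (ZMod K' → E) (Zc E K' K q) (FF (E := E) x hq0 h₀ h' hKq)
    (g1.mono fun p hp => hp.of_le (WithTop.coe_le_coe.2 le_top)) g2 g3 D s3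
  refine ⟨lam, ?_⟩
  have s5 : LR (SL (fun p => 2 * K * FF (E := E) x hq0 h₀ h' hKq p)) ((m * ℓ) ^ 2) {0}
      (fun q => if q < lam then 0 else D (q - lam)) := by
    refine lr_scale (c := 2 * K) (by positivity) s4 (fun _ => rfl) ?_
    rw [hF0, hKq, hq]
    push_cast
    field_simp
  -- back to polygons
  set ψ := ((spl E hq0 h' hKq).toHomeomorph.toOpenPartialHomeomorph).trans
    (polHomeo (E := E) x (h₀.trans h')) with hψ
  have hψs : (0 : (ZMod K' → E) × Zc E K' K q) ∈ ψ.source := by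
    rw [hψ, OpenPartialHomeomorph.trans_source]
    refine ⟨mem_univ _, ?_⟩
    show spl E hq0 h' hKq (0 : (ZMod K' → E) × Zc E K' K q) ∈
      (polHomeo (E := E) x (h₀.trans h')).source
    rw [map_zero]
    exact zero_mem_source x _
  have hψ0 : ψ 0 = rep K h₁ x := by
    rw [← pol_zero' (E := E) x h₁]
    show polHomeo (E := E) x (h₀.trans h') (spl E hq0 h' hKq (0 : (ZMod K' → E) × Zc E K' K q)) = _
    rw [map_zero, polHomeo_apply]
  have s6 : LR (SL (LS.E : (ZMod K → M) → ℝ)) ((m * ℓ) ^ 2) {rep K h₁ x}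
      (fun q => if q < lam then 0 else D (q - lam)) := by
    refine lr_homeo ψ.symm (p := rep K h₁ x) ?_
      (F' := fun p => 2 * K * FF (E := E) x hq0 h₀ h' hKq p) ?_ ?_
    · rw [← hψ0]
      exact ψ.map_source hψs
    · intro z hz
      have h3 : ψ (ψ.symm z) = z := ψ.right_inv hz
      conv_lhs => rw [← h3]
      show LS.E (polHomeo (E := E) x (h₀.trans h') (spl E hq0 h' hKq (ψ.symm z))) = _
      rw [polHomeo_apply, E_pol]
      rfl
    · rw [← hψ0, ψ.left_inv hψs]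
      exact s5
  exact lr_sq (by positivity) hX s6

end Geom

end Vale.Agent.P216.H844
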