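import Vale.Agent.P216.GM.LR

/-!
P216, block F4: local ranks of sublevel sets under changes of level and of coordinates.
-/

set_option linter.unusedSectionVars false

open Set Filter Topology

namespace Vale.Agent.P216.H844

open Vale.Agent.P265.AS Vale.Agent.P216.H41 Vale.Agent.P216.GM

section Lev

variable {E E' : Type} [PseudoMetricSpace E] [PseudoMetricSpace E'] {K : Set E} {D : ℕ → ℕ}

/-- Local ranks only depend on the filtration near the level and near `K`, and they are invariant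
under changes of level. -/
theorem lr_reparam {X X' : ℝ → Set E} {a a' : ℝ} (φ : ℝ → ℝ) (h : LR X a K D)
    (hφ : ContinuousAt φ a') (ha : φ a' = a) (hlt : ∀ᶠ s in 𝓝 a', s < a' → φ s < a)
    (hgt : ∀ᶠ t in 𝓝 a', a' < t → a < φ t) {r₀ : ℝ} (hr₀ : 0 < r₀)
    (hX : ∀ᶠ s in 𝓝 a', nb K r₀ ∩ X' s = nb K r₀ ∩ X (φ s)) : LR X' a' K D := by
  intro r hr
  obtain ⟨r', hr', hr'le, e₀, he₀, H⟩ :=
    h.exists_le (r := min r r₀) (lt_min hr hr₀) (ρ := min r r₀) (lt_min hr hr₀)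
  have h1 : ∀ᶠ s in 𝓝 a', φ s ∈ Ioo (a - e₀) (a + e₀) := by
    refine hφ.eventually ?_
    rw [ha]
    exact Ioo_mem_nhds (by linarith) (by linarith)
  obtain ⟨ε, hε, H1⟩ := Metric.eventually_nhds_iff.1 (h1.and (hlt.and (hgt.and hX)))
  refine ⟨r', hr', ε, hε, fun s t h2 h3 h4 h5 k _ q => ?_⟩
  obtain ⟨a1, a2, a3, a4⟩ := H1 (y := s) (by rw [Real.dist_eq, abs_of_neg (by linarith)]; linarith)
  obtain ⟨b1, b2, b3, b4⟩ := H1 (y := t) (by rw [Real.dist_eq, abs_of_pos (by linarith)]; linarith)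
  have key : ∀ (R : ℝ), R ≤ r₀ → ∀ Z Z' : Set E, nb K r₀ ∩ Z = nb K r₀ ∩ Z' →
      nb K R ∩ Z = nb K R ∩ Z' := by
    intro R hR Z Z' hZ
    have h6 : nb K R ∩ nb K r₀ = nb K R := inter_eq_left.2 (nb_mono le_rfl hR)
    rw [← h6, inter_assoc, hZ, ← inter_assoc]
  have hle : min r r₀ ≤ r₀ := min_le_right _ _
  have hr'0 : r' ≤ r₀ := hr'le.trans hle
  rw [key r' hr'0 _ _ a4, key r' hr'0 _ _ b4]
  refine le_trans (rk_mono (X₂ := nb K (min r r₀) ∩ X (φ t)) (A₂ := nb K (min r r₀) ∩ X (φ s))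
    ?_ ?_ le_rfl le_rfl q) (H (φ s) (φ t) a1.1 (a2 h3) (b3 h4) b1.2 k q _ le_rfl)
  · rw [← key _ hle _ _ b4]
    exact inter_subset_inter_left _ (nb_mono le_rfl (min_le_left _ _))
  · rw [← key _ hle _ _ a4]
    exact inter_subset_inter_left _ (nb_mono le_rfl (min_le_left _ _))

/-- Sublevel sets. -/
def SL {E : Type*} (F : E → ℝ) (u : ℝ) : Set E := {x | F x ≤ u}

theorem mem_SL {E : Type*} {F : E → ℝ} {u : ℝ} {x : E} : x ∈ SL F u ↔ F x ≤ u := Iff.rfl

theorem SL_mono {E : Type*} (F : E → ℝ) : Monotone (SL F) := fun _ _ h _ hx => le_trans hx h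

theorem lr_congr {X X' : ℝ → Set E} {a : ℝ} (h : LR X a K D) {r₀ : ℝ} (hr₀ : 0 < r₀)
    (hX : ∀ᶠ s in 𝓝 a, nb K r₀ ∩ X' s = nb K r₀ ∩ X s) : LR X' a K D :=
  lr_reparam id h continuousAt_id rfl (Eventually.of_forall fun _ h => h)
    (Eventually.of_forall fun _ h => h) hr₀ hX

/-- Levels `s ^ 2` to levels `u`. -/
theorem lr_of_sq {X : ℝ → Set E} {F : E → ℝ} {a : ℝ} (ha : 0 < a)
    (hX : ∀ s, 0 < s → X s = {x | F x ≤ s ^ 2}) (h : LR X a K D) : LR (SL F) (a ^ 2) K D := by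
  have hsq : Real.sqrt (a ^ 2) = a := Real.sqrt_sq ha.le
  have hpos : ∀ᶠ s in 𝓝 (a ^ 2), 0 < s := lt_mem_nhds (by positivity)
  refine lr_reparam Real.sqrt h Real.continuous_sqrt.continuousAt hsq ?_ ?_ one_pos ?_
  · filter_upwards [hpos] with s hs hlt
    rw [← hsq]
    exact Real.sqrt_lt_sqrt hs.le hlt
  · filter_upwards [hpos] with s hs hlt
    rw [← hsq]
    exact Real.sqrt_lt_sqrt (by positivity) hlt
  · filter_upwards [hpos] with s hs
    rw [hX _ (Real.sqrt_pos.2 hs), Real.sq_sqrt hs.le]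
    rfl

/-- Levels `u` to levels `s ^ 2`. -/
theorem lr_sq {X : ℝ → Set E} {F : E → ℝ} {a : ℝ} (ha : 0 < a)
    (hX : ∀ s, 0 < s → X s = {x | F x ≤ s ^ 2}) (h : LR (SL F) (a ^ 2) K D) : LR X a K D := by
  have hpos : ∀ᶠ s in 𝓝 a, 0 < s := lt_mem_nhds ha
  refine lr_reparam (fun s => s ^ 2) h (by fun_prop) rfl ?_ ?_ one_pos ?_
  · filter_upwards [hpos] with s hs hlt
    exact pow_lt_pow_left₀ hlt hs.le two_ne_zero
  · filter_upwards [hpos] with s hs hlt
    exact pow_lt_pow_left₀ hlt ha.le two_ne_zero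
  · filter_upwards [hpos] with s hs
    rw [hX _ hs]
    rfl

theorem lr_scale {F F' : E → ℝ} {a a' c : ℝ} (hc : 0 < c) (h : LR (SL F) a K D)
    (hF : ∀ x, F' x = c * F x) (ha : a' = c * a) : LR (SL F') a' K D := by
  subst ha
  refine lr_reparam (fun s => s / c) h (by fun_prop) (mul_div_cancel_left₀ a hc.ne') ?_ ?_
    one_pos ?_
  · refine Eventually.of_forall fun s hlt => ?_
    rw [div_lt_iff₀ hc]
    linarith
  · refine Eventually.of_forall fun s hlt => ?_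
    rw [lt_div_iff₀ hc]
    linarith
  · refine Eventually.of_forall fun s => ?_
    congr 1
    ext x
    rw [mem_SL, mem_SL, hF, le_div_iff₀ hc, mul_comm]

end Lev

section Homeo

variable {E E' : Type} [MetricSpace E] [MetricSpace E'] {D : ℕ → ℕ}

theorem uc_aux {K : Set E} {f : E → E'} (hK : IsCompact K) (hc : ContinuousOn f K) :
    ∀ ε > 0, ∃ δ > 0, ∀ x ∈ K, ∀ y ∈ K, dist x y < δ → dist (f x) (f y) < ε := by
  have h := hK.uniformContinuousOn_of_continuous hc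
  rw [Metric.uniformContinuousOn_iff] at h
  exact h

/-- Local ranks in coordinates. -/
theorem lr_homeo [ProperSpace E] [ProperSpace E'] (φ : OpenPartialHomeomorph E E') {p : E}
    (hp : p ∈ φ.source) {F : E → ℝ} {F' : E' → ℝ} (hF : ∀ x ∈ φ.source, F x = F' (φ x)) {a : ℝ}
    (h : LR (SL F') a {φ p} D) : LR (SL F) a {p} D := by
  obtain ⟨r₁, hr₁, h1⟩ := Metric.nhds_basis_closedBall.mem_iff.1 (φ.open_source.mem_nhds hp)
  obtain ⟨r₂, hr₂, h2⟩ :=
    Metric.nhds_basis_closedBall.mem_iff.1 (φ.open_target.mem_nhds (φ.map_source hp))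
  set r₀ : ℝ := min r₁ r₂ with hr₀
  have h0 : 0 < r₀ := lt_min hr₁ hr₂
  have h1' : Metric.closedBall p r₀ ⊆ φ.source :=
    (Metric.closedBall_subset_closedBall (min_le_left _ _)).trans h1
  have h2' : Metric.closedBall (φ p) r₀ ⊆ φ.target :=
    (Metric.closedBall_subset_closedBall (min_le_right _ _)).trans h2
  have hsp : φ.symm (φ p) = p := φ.left_inv hp
  refine LR.of_maps h (F := φ) (G := φ.symm) (H := fun _ x => x) h0 one_pos (SL_mono F)
    (SL_mono F') ?_ ?_ ?_ ?_ ?_ ?_ ?_ ?_ ?_ ?_ ?_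
  · intro s _ x hx hxs
    rw [nb_singleton] at hx
    rw [mem_SL] at hxs ⊢
    rwa [← hF x (h1' hx)]
  · intro ρ hρ
    obtain ⟨δ, hδ, h3⟩ := Metric.nhds_basis_closedBall.mem_iff.1
      ((φ.continuousAt hp).preimage_mem_nhds (Metric.closedBall_mem_nhds (φ p) hρ))
    refine ⟨δ, hδ, fun x hx _ => ?_⟩
    rw [nb_singleton] at hx ⊢
    exact h3 hx
  · intro ε hε
    obtain ⟨δ, hδ, h3⟩ := uc_aux (isCompact_closedBall p r₀)
      (φ.continuousOn.mono h1') ε hε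
    rw [nb_singleton]
    exact ⟨δ, hδ, fun x hx y hy => h3 x hx.1 y hy.1⟩
  · intro s _ x hx hxs
    rw [nb_singleton] at hx
    rw [mem_SL] at hxs ⊢
    rwa [hF _ (φ.map_target (h2' hx)), φ.right_inv (h2' hx)]
  · intro ρ hρ
    have h4 : ContinuousAt φ.symm (φ p) := φ.continuousAt_symm (φ.map_source hp)
    obtain ⟨δ, hδ, h3⟩ := Metric.nhds_basis_closedBall.mem_iff.1
      (h4.preimage_mem_nhds (Metric.closedBall_mem_nhds _ hρ))
    refine ⟨δ, hδ, fun x hx _ => ?_⟩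
    rw [nb_singleton] at hx ⊢
    rw [← hsp]
    exact h3 hx
  · intro ε hε
    obtain ⟨δ, hδ, h3⟩ := uc_aux (isCompact_closedBall (φ p) r₀)
      (φ.continuousOn_symm.mono h2') ε hε
    rw [nb_singleton]
    exact ⟨δ, hδ, fun x hx y hy => h3 x hx.1 y hy.1⟩
  · exact fun s _ u _ x _ hx => hx
  · exact fun ρ hρ => ⟨ρ, hρ, fun u _ x hx _ => hx⟩
  · exact fun ε hε => ⟨ε, hε, fun u _ v _ x _ y _ _ h3 => h3⟩
  · exact fun x _ => rfl
  · intro x hx
    rw [nb_singleton] at hx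
    exact (φ.left_inv (h1' hx.1)).symm

end Homeo

end Vale.Agent.P216.H844
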